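import Mathlib.Analysis.SpecificLimits.Basic
import Mathlib.Analysis.SpecialFunctions.Trigonometric.Bounds
import Mathlib.Analysis.SpecialFunctions.Log.Deriv
import Mathlib.Tactic

/-!
Grid averages of Lipschitz functions and products of many factors close to one
(P196, amenability half).
-/

namespace Vale.Agent.P196.AM

open Real Filter Topology Finset

/-- bounded and Lipschitz function of two variables -/
def BL (F : ℝ → ℝ → ℝ) : Prop :=
  ∃ C : ℝ, 0 ≤ C ∧ (∀ x y, |F x y| ≤ C) ∧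
    ∀ x y x' y', |F x y - F x' y'| ≤ C * (|x - x'| + |y - y'|)

theorem BL.add {F G : ℝ → ℝ → ℝ} (hF : BL F) (hG : BL G) : BL (fun x y => F x y + G x y) := by
  obtain ⟨C, hC, b, l⟩ := hF
  obtain ⟨D, hD, b', l'⟩ := hG
  refine ⟨C + D, by positivity, fun x y => ?_, fun x y x' y' => ?_⟩
  · have := abs_add_le (F x y) (G x y)
    have := b x y
    have := b' x y
    linarith
  · have e : F x y + G x y - (F x' y' + G x' y') = (F x y - F x' y') + (G x y - G x' y') := by ring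
    rw [e]
    have := abs_add_le (F x y - F x' y') (G x y - G x' y')
    have := l x y x' y'
    have := l' x y x' y'
    linarith [add_mul C D (|x - x'| + |y - y'|)]

theorem BL.mul {F G : ℝ → ℝ → ℝ} (hF : BL F) (hG : BL G) : BL (fun x y => F x y * G x y) := by
  obtain ⟨C, hC, b, l⟩ := hF
  obtain ⟨D, hD, b', l'⟩ := hG
  refine ⟨2 * (C * D), by positivity, fun x y => ?_, fun x y x' y' => ?_⟩
  · rw [abs_mul]
    have := mul_le_mul (b x y) (b' x y) (abs_nonneg _) hC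
    nlinarith [mul_nonneg hC hD]
  · have e : F x y * G x y - F x' y' * G x' y' =
      (F x y - F x' y') * G x y + F x' y' * (G x y - G x' y') := by ring
    rw [e]
    have h1 : |(F x y - F x' y') * G x y| ≤ C * (|x - x'| + |y - y'|) * D := by
      rw [abs_mul]
      exact mul_le_mul (l x y x' y') (b' x y) (abs_nonneg _) (by positivity)
    have h2 : |F x' y' * (G x y - G x' y')| ≤ C * (D * (|x - x'| + |y - y'|)) := by
      rw [abs_mul]
      exact mul_le_mul (b x' y') (l' x y x' y') (abs_nonneg _) hC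
    have := abs_add_le ((F x y - F x' y') * G x y) (F x' y' * (G x y - G x' y'))
    linarith

theorem BL.const (c : ℝ) : BL (fun _ _ => c) :=
  ⟨|c|, abs_nonneg _, fun _ _ => le_rfl, fun x y x' y' => by
    rw [sub_self, abs_zero]; positivity⟩

theorem BL.fst {f : ℝ → ℝ} {C : ℝ} (hC : 0 ≤ C) (b : ∀ x, |f x| ≤ C)
    (l : ∀ x x', |f x - f x'| ≤ C * |x - x'|) : BL (fun x _ => f x) :=
  ⟨C, hC, fun x _ => b x, fun x y x' y' => (l x x').trans
    (mul_le_mul_of_nonneg_left (by linarith [abs_nonneg (y - y')]) hC)⟩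

theorem BL.snd {f : ℝ → ℝ} {C : ℝ} (hC : 0 ≤ C) (b : ∀ x, |f x| ≤ C)
    (l : ∀ x x', |f x - f x'| ≤ C * |x - x'|) : BL (fun _ y => f y) :=
  ⟨C, hC, fun _ y => b y, fun x y x' y' => (l y y').trans
    (mul_le_mul_of_nonneg_left (by linarith [abs_nonneg (x - x')]) hC)⟩

theorem BL.cos {F : ℝ → ℝ → ℝ} (hF : BL F) : BL (fun x y => Real.cos (F x y)) := by
  obtain ⟨C, hC, b, l⟩ := hF
  refine ⟨C + 1, by positivity, fun x y => (abs_cos_le_one _).trans (by linarith),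
    fun x y x' y' => ((abs_cos_sub_cos_le _ _).trans (l x y x' y')).trans ?_⟩
  exact mul_le_mul_of_nonneg_right (by linarith) (by positivity)

theorem BL.sin {F : ℝ → ℝ → ℝ} (hF : BL F) : BL (fun x y => Real.sin (F x y)) := by
  obtain ⟨C, hC, b, l⟩ := hF
  refine ⟨C + 1, by positivity, fun x y => (abs_sin_le_one _).trans (by linarith),
    fun x y x' y' => ((abs_sin_sub_sin_le _ _).trans (l x y x' y')).trans ?_⟩
  exact mul_le_mul_of_nonneg_right (by linarith) (by positivity)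

/-- grid average -/
noncomputable def avg (m : ℕ) (F : ℝ → ℝ → ℝ) : ℝ :=
  (∑ u ∈ range (2 ^ m) ×ˢ range (2 ^ m), F (u.1 / 2 ^ m) (u.2 / 2 ^ m)) / 4 ^ m

theorem sum_blocks (a b : ℕ) (f : ℕ → ℝ) :
    ∑ u ∈ range (a * b), f u = ∑ w ∈ range b, ∑ c ∈ range a, f (c + a * w) := by
  induction b with
  | zero => simp
  | succ b ih =>
    rw [Nat.mul_succ, sum_range_add, ih, sum_range_succ]
    congr 1
    exact sum_congr rfl fun c _ => by rw [add_comm]

theorem sum_blocks2 (a b : ℕ) (f : ℕ → ℕ → ℝ) :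
    ∑ u ∈ range (a * b) ×ˢ range (a * b), f u.1 u.2 =
      ∑ w ∈ range b ×ˢ range b, ∑ c ∈ range a ×ˢ range a, f (c.1 + a * w.1) (c.2 + a * w.2) := by
  rw [sum_product, sum_product, sum_blocks]
  refine sum_congr rfl fun w _ => ?_
  simp_rw [sum_blocks a b, sum_product]
  rw [sum_comm]

theorem sum_split (a b : ℕ) (F : ℕ → ℕ → ℝ) (φ : ℕ → ℕ → ℝ) :
    ∑ u ∈ range (a * b) ×ˢ range (a * b), F (u.1 / a) (u.2 / a) * φ (u.1 % a) (u.2 % a) =
      (∑ w ∈ range b ×ˢ range b, F w.1 w.2) * ∑ c ∈ range a ×ˢ range a, φ c.1 c.2 := by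
  rw [sum_blocks2 a b (fun u v => F (u / a) (v / a) * φ (u % a) (v % a)), sum_mul]
  refine sum_congr rfl fun w _ => ?_
  rw [mul_sum]
  refine sum_congr rfl fun c hc => ?_
  rw [mem_product, mem_range, mem_range] at hc
  have ha : 0 < a := by omega
  rw [Nat.add_mul_div_left _ _ ha, Nat.add_mul_div_left _ _ ha, Nat.div_eq_of_lt hc.1,
    Nat.div_eq_of_lt hc.2, Nat.add_mul_mod_self_left, Nat.add_mul_mod_self_left,
    Nat.mod_eq_of_lt hc.1, Nat.mod_eq_of_lt hc.2, zero_add, zero_add]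

theorem div_block_close (a b u : ℕ) (ha : 0 < a) (hb : 0 < b) :
    |(u : ℝ) / ((a : ℝ) * b) - ((u / a : ℕ) : ℝ) / b| ≤ 1 / b := by
  have h1 : (u : ℝ) = a * ((u / a : ℕ) : ℝ) + ((u % a : ℕ) : ℝ) := by
    exact_mod_cast (Nat.div_add_mod u a).symm
  have h2 : ((u % a : ℕ) : ℝ) < a := by exact_mod_cast Nat.mod_lt u ha
  have h3 : (0:ℝ) ≤ ((u % a : ℕ) : ℝ) := Nat.cast_nonneg _
  have ha' : (0:ℝ) < a := by exact_mod_cast ha
  have hb' : (0:ℝ) < b := by exact_mod_cast hb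
  have e : (u : ℝ) / ((a : ℝ) * b) - ((u / a : ℕ) : ℝ) / b = ((u % a : ℕ) : ℝ) / (a * b) := by
    rw [h1]
    field_simp
    ring
  rw [e, abs_of_nonneg (by positivity), div_le_div_iff₀ (by positivity) hb']
  nlinarith

/-- the block estimate for grid averages -/
theorem avg_block {F : ℝ → ℝ → ℝ} {L : ℝ} (hL : 0 ≤ L)
    (hF : ∀ x y x' y', |F x y - F x' y'| ≤ L * (|x - x'| + |y - y'|))
    (φ : ℕ → ℕ → ℝ) (B : ℝ) (hφ : ∀ c c', |φ c c'| ≤ B) (J k : ℕ) :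
    |(∑ u ∈ range (2 ^ (J + k)) ×ˢ range (2 ^ (J + k)),
        F (u.1 / 2 ^ (J + k)) (u.2 / 2 ^ (J + k)) * φ (u.1 % 2 ^ J) (u.2 % 2 ^ J)) / 4 ^ (J + k)
      - avg k F * ((∑ c ∈ range (2 ^ J) ×ˢ range (2 ^ J), φ c.1 c.2) / 4 ^ J)| ≤
      2 * L * B / 2 ^ k := by
  have hsplit := sum_split (2 ^ J) (2 ^ k)
    (fun u v => F ((u : ℝ) / 2 ^ k) ((v : ℝ) / 2 ^ k)) φ
  have hB : 0 ≤ B := (abs_nonneg _).trans (hφ 0 0)
  have e4 : (4:ℝ) ^ (J + k) = 4 ^ J * 4 ^ k := pow_add _ _ _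
  have p4 : (0:ℝ) < 4 ^ (J + k) := by positivity
  have hA : avg k F * ((∑ c ∈ range (2 ^ J) ×ˢ range (2 ^ J), φ c.1 c.2) / 4 ^ J) =
      (∑ u ∈ range (2 ^ (J + k)) ×ˢ range (2 ^ (J + k)),
        F (((u.1 / 2 ^ J : ℕ) : ℝ) / 2 ^ k) (((u.2 / 2 ^ J : ℕ) : ℝ) / 2 ^ k) *
          φ (u.1 % 2 ^ J) (u.2 % 2 ^ J)) / 4 ^ (J + k) := by
    rw [pow_add 2 J k, hsplit, avg, e4]
    field_simp
  rw [hA, ← sub_div, ← sum_sub_distrib, abs_div, abs_of_pos p4, div_le_iff₀ p4]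
  refine (abs_sum_le_sum_abs _ _).trans ?_
  have hterm : ∀ u ∈ range (2 ^ (J + k)) ×ˢ range (2 ^ (J + k)),
      |F ((u.1 : ℝ) / 2 ^ (J + k)) ((u.2 : ℝ) / 2 ^ (J + k)) * φ (u.1 % 2 ^ J) (u.2 % 2 ^ J) -
        F (((u.1 / 2 ^ J : ℕ) : ℝ) / 2 ^ k) (((u.2 / 2 ^ J : ℕ) : ℝ) / 2 ^ k) *
          φ (u.1 % 2 ^ J) (u.2 % 2 ^ J)| ≤ 2 * L * B / 2 ^ k := by
    intro u _
    rw [← sub_mul, abs_mul]
    have h1 := div_block_close (2 ^ J) (2 ^ k) u.1 (by positivity) (by positivity)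
    have h2 := div_block_close (2 ^ J) (2 ^ k) u.2 (by positivity) (by positivity)
    push_cast at h1 h2
    rw [← pow_add] at h1 h2
    have h3 := hF ((u.1 : ℝ) / 2 ^ (J + k)) ((u.2 : ℝ) / 2 ^ (J + k))
      (((u.1 / 2 ^ J : ℕ) : ℝ) / 2 ^ k) (((u.2 / 2 ^ J : ℕ) : ℝ) / 2 ^ k)
    have h4 : L * (|(u.1 : ℝ) / 2 ^ (J + k) - ((u.1 / 2 ^ J : ℕ) : ℝ) / 2 ^ k| +
        |(u.2 : ℝ) / 2 ^ (J + k) - ((u.2 / 2 ^ J : ℕ) : ℝ) / 2 ^ k|) ≤ L * (1 / 2 ^ k + 1 / 2 ^ k) :=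
      mul_le_mul_of_nonneg_left (add_le_add h1 h2) hL
    calc _ ≤ L * (1 / 2 ^ k + 1 / 2 ^ k) * B :=
          mul_le_mul (h3.trans h4) (hφ _ _) (abs_nonneg _) (by positivity)
      _ = _ := by ring
  refine (sum_le_sum hterm).trans ?_
  rw [sum_const, card_product, card_range, nsmul_eq_mul]
  push_cast
  have : (2:ℝ) ^ (J + k) * 2 ^ (J + k) = 4 ^ (J + k) := by
    rw [← mul_pow]; norm_num
  rw [this, mul_comm]

/-- grid averages of a bounded Lipschitz function converge -/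
theorem BL.exists_avg {F : ℝ → ℝ → ℝ} (hF : BL F) :
    ∃ A, Tendsto (fun m => avg m F) atTop (𝓝 A) := by
  obtain ⟨L, hL, _, l⟩ := hF
  have key : ∀ m, dist (avg m F) (avg (m + 1) F) ≤ 2 * L * (1 / 2) ^ m := by
    intro m
    have h := avg_block hL l (fun _ _ => 1) 1 (by simp) 1 m
    have e1 : avg (m + 1) F = (∑ u ∈ range (2 ^ (1 + m)) ×ˢ range (2 ^ (1 + m)),
        F (u.1 / 2 ^ (1 + m)) (u.2 / 2 ^ (1 + m)) * 1) / 4 ^ (1 + m) := by
      rw [avg, add_comm 1 m]; simp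
    rw [← e1] at h
    have e2 : (∑ c ∈ range (2 ^ 1) ×ˢ range (2 ^ 1), (1:ℝ)) / 4 ^ 1 = 1 := by
      rw [sum_const, card_product, card_range]; norm_num
    rw [e2, mul_one] at h
    rw [dist_comm, Real.dist_eq]
    refine h.trans (le_of_eq ?_)
    rw [one_div, inv_pow]; ring
  exact cauchySeq_tendsto_of_complete (cauchySeq_of_le_geometric (1 / 2) (2 * L) (by norm_num) key)

/-- averages along residue classes -/
theorem BL.tendsto_sum {F : ℝ → ℝ → ℝ} (hF : BL F) {A : ℝ}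
    (hA : Tendsto (fun m => avg m F) atTop (𝓝 A)) (φ : ℕ → ℕ → ℝ) (J : ℕ) :
    Tendsto (fun m => (∑ u ∈ range (2 ^ m) ×ˢ range (2 ^ m),
        F (u.1 / 2 ^ m) (u.2 / 2 ^ m) * φ (u.1 % 2 ^ J) (u.2 % 2 ^ J)) / 4 ^ m) atTop
      (𝓝 (A * ((∑ c ∈ range (2 ^ J) ×ˢ range (2 ^ J), φ c.1 c.2) / 4 ^ J))) := by
  obtain ⟨L, hL, _, l⟩ := hF
  set ψ : ℕ → ℕ → ℝ := fun c c' => φ (c % 2 ^ J) (c' % 2 ^ J) with hψ
  have hB : ∀ c c', |ψ c c'| ≤ ∑ c ∈ range (2 ^ J) ×ˢ range (2 ^ J), |φ c.1 c.2| := by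
    intro c c'
    have hm : (c % 2 ^ J, c' % 2 ^ J) ∈ range (2 ^ J) ×ˢ range (2 ^ J) := by
      rw [mem_product, mem_range, mem_range]
      exact ⟨Nat.mod_lt _ (by positivity), Nat.mod_lt _ (by positivity)⟩
    exact single_le_sum (f := fun c : ℕ × ℕ => |φ c.1 c.2|) (fun i _ => abs_nonneg _) hm
  set B := ∑ c ∈ range (2 ^ J) ×ˢ range (2 ^ J), |φ c.1 c.2| with hBdef
  rw [← tendsto_add_atTop_iff_nat J]
  have hmain : Tendsto (fun k => avg k F * ((∑ c ∈ range (2 ^ J) ×ˢ range (2 ^ J), φ c.1 c.2) / 4 ^ J))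
      atTop (𝓝 (A * ((∑ c ∈ range (2 ^ J) ×ˢ range (2 ^ J), φ c.1 c.2) / 4 ^ J))) :=
    hA.mul_const _
  have hz : Tendsto (fun k : ℕ => 2 * L * B / 2 ^ k) atTop (𝓝 0) := by
    have := (tendsto_pow_atTop_nhds_zero_of_lt_one (r := (1/2 : ℝ)) (by norm_num)
      (by norm_num)).const_mul (2 * L * B)
    rw [mul_zero] at this
    refine this.congr fun k => ?_
    rw [one_div, inv_pow]; ring
  refine tendsto_of_tendsto_of_dist hmain ?_
  refine squeeze_zero (fun _ => dist_nonneg) (fun k => ?_) hz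
  have h := avg_block hL l ψ B hB J k
  rw [dist_comm, Real.dist_eq]
  have e1 : (∑ c ∈ range (2 ^ J) ×ˢ range (2 ^ J), ψ c.1 c.2) =
      ∑ c ∈ range (2 ^ J) ×ˢ range (2 ^ J), φ c.1 c.2 := by
    refine sum_congr rfl fun c hc => ?_
    rw [mem_product, mem_range, mem_range] at hc
    simp only [hψ, Nat.mod_eq_of_lt hc.1, Nat.mod_eq_of_lt hc.2]
  have e2 : (∑ u ∈ range (2 ^ (J + k)) ×ˢ range (2 ^ (J + k)),
        F (u.1 / 2 ^ (J + k)) (u.2 / 2 ^ (J + k)) * ψ (u.1 % 2 ^ J) (u.2 % 2 ^ J)) =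
      (∑ u ∈ range (2 ^ (k + J)) ×ˢ range (2 ^ (k + J)),
        F (u.1 / 2 ^ (k + J)) (u.2 / 2 ^ (k + J)) * φ (u.1 % 2 ^ J) (u.2 % 2 ^ J)) := by
    rw [add_comm J k]
    refine sum_congr rfl fun c _ => ?_
    simp only [hψ, Nat.mod_mod]
  rw [e1, e2, add_comm J k] at h
  exact h

/-- a product of many factors close to one -/
theorem tendsto_prod_of_sum {ι : Type*} (s : ℕ → Finset ι) (a : ℕ → ι → ℝ) (A C : ℝ)
    (hcard : ∀ m, ((s m).card : ℝ) ≤ 4 ^ m) (hC : ∀ m, ∀ i ∈ s m, |a m i| ≤ C / 4 ^ m)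
    (hA : Tendsto (fun m => ∑ i ∈ s m, a m i) atTop (𝓝 A)) :
    Tendsto (fun m => ∏ i ∈ s m, (1 - a m i)) atTop (𝓝 (exp (-A))) := by
  have h4 : Tendsto (fun m : ℕ => C / (4:ℝ) ^ m) atTop (𝓝 0) := by
    have := (tendsto_pow_atTop_nhds_zero_of_lt_one (r := (1/4 : ℝ)) (by norm_num)
      (by norm_num)).const_mul C
    rw [mul_zero] at this
    refine this.congr fun k => ?_
    rw [one_div, inv_pow]; ring
  have hsmall : ∀ᶠ m in atTop, C / (4:ℝ) ^ m ≤ 1 / 2 := by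
    have := h4.eventually (gt_mem_nhds (by norm_num : (0:ℝ) < 1 / 2))
    exact this.mono fun m hm => le_of_lt hm
  -- sum of logs
  have hlog : Tendsto (fun m => ∑ i ∈ s m, log (1 - a m i)) atTop (𝓝 (-A)) := by
    refine tendsto_of_tendsto_of_dist hA.neg ?_
    have hz : Tendsto (fun m : ℕ => 2 * C * (C / (4:ℝ) ^ m)) atTop (𝓝 0) := by
      simpa using h4.const_mul (2 * C)
    refine squeeze_zero' (Eventually.of_forall fun _ => dist_nonneg) ?_ hz
    filter_upwards [hsmall] with m hm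
    rw [dist_comm, Real.dist_eq, ← sum_neg_distrib, ← sum_sub_distrib]
    refine (abs_sum_le_sum_abs _ _).trans ?_
    have hterm : ∀ i ∈ s m, |log (1 - a m i) - -a m i| ≤ 2 * (C / 4 ^ m) ^ 2 := by
      intro i hi
      have h1 := hC m i hi
      have h2 : |a m i| ≤ 1 / 2 := h1.trans hm
      have h3 := abs_log_sub_add_sum_range_le (lt_of_le_of_lt h2 (by norm_num) : |a m i| < 1) 1
      simp only [sum_range_one, zero_add, pow_one, Nat.cast_zero, div_one] at h3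
      have e : log (1 - a m i) - -a m i = a m i + log (1 - a m i) := by ring
      rw [e]
      refine h3.trans ?_
      rw [div_le_iff₀ (by linarith)]
      have h5 : |a m i| ^ 2 ≤ (C / 4 ^ m) ^ 2 := pow_le_pow_left₀ (abs_nonneg _) h1 2
      have h6 : |a m i| ^ (1 + 1) = |a m i| ^ 2 := rfl
      rw [h6]
      nlinarith [sq_nonneg (C / 4 ^ m)]
    refine (sum_le_sum hterm).trans ?_
    rw [sum_const, nsmul_eq_mul]
    have h7 : ((s m).card : ℝ) * (2 * (C / 4 ^ m) ^ 2) ≤ 4 ^ m * (2 * (C / 4 ^ m) ^ 2) :=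
      mul_le_mul_of_nonneg_right (hcard m) (by positivity)
    refine h7.trans (le_of_eq ?_)
    field_simp
  have hexp := (continuous_exp.tendsto (-A)).comp hlog
  refine hexp.congr' ?_
  filter_upwards [hsmall] with m hm
  simp only [Function.comp]
  rw [exp_sum]
  refine prod_congr rfl fun i hi => ?_
  rw [exp_log]
  have := (hC m i hi).trans hm
  have := le_abs_self (a m i)
  linarith

end Vale.Agent.P196.AM
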