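import Vale.Agent.P196.AM.Overlap
import Mathlib.Data.ZMod.Basic

/-!
AM4: the concrete profile and the limit of the overlaps over the torus of classes modulo
`2^(M+1)` (P196, amenability half).
-/

namespace Vale.Agent.P196.AM

open Real Filter Topology Finset

/-! ### the concrete profile -/

/-- angle profile: `0` for `x ≤ 3/10`, `π/2` for `x ≥ 7/10` -/
noncomputable def thP (x : ℝ) : ℝ := π / 2 * smoothTransition (5 / 2 * x + (-3 / 4))

/-- horizontal cut-off: `0` off `[27/100, 73/100]`, `1` on `[3/10, 7/10]` -/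
noncomputable def pP (x : ℝ) : ℝ :=
  smoothTransition (100 / 3 * x + (-9)) * smoothTransition (-100 / 3 * x + 73 / 3)

/-- vertical profile: `0` off `[1/5, 4/5]`, `π/2` on `[7/20, 13/20]` -/
noncomputable def qP (x : ℝ) : ℝ :=
  π / 2 * (smoothTransition (20 / 3 * x + (-4 / 3)) * smoothTransition (-20 / 3 * x + 16 / 3))

/-- the profile of the site vectors -/
noncomputable def prof (x1 x2 : ℝ) : ℝ × ℝ := Phi thP pP qP x1 x2

theorem prof_fst (x1 x2 : ℝ) : (prof x1 x2).1 = thP x1 := rfl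

theorem prof_snd (x1 x2 : ℝ) : (prof x1 x2).2 = pP x1 * qP x2 := rfl

theorem thP_zero {x : ℝ} (h : x ≤ 3 / 10) : thP x = 0 := by
  rw [thP, smoothTransition.zero_of_nonpos (by linarith), mul_zero]

theorem thP_pi {x : ℝ} (h : 7 / 10 ≤ x) : thP x = π / 2 := by
  rw [thP, smoothTransition.one_of_one_le (by linarith), mul_one]

theorem pP_zero_left {x : ℝ} (h : x ≤ 27 / 100) : pP x = 0 := by
  rw [pP, smoothTransition.zero_of_nonpos (by linarith), zero_mul]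

theorem pP_zero_right {x : ℝ} (h : 73 / 100 ≤ x) : pP x = 0 := by
  rw [pP, smoothTransition.zero_of_nonpos (x := -100 / 3 * x + 73 / 3) (by linarith), mul_zero]

theorem pP_one {x : ℝ} (h : 3 / 10 ≤ x) (h' : x ≤ 7 / 10) : pP x = 1 := by
  rw [pP, smoothTransition.one_of_one_le (by linarith), smoothTransition.one_of_one_le
    (by linarith), mul_one]

theorem qP_zero_left {x : ℝ} (h : x ≤ 1 / 5) : qP x = 0 := by
  rw [qP, smoothTransition.zero_of_nonpos (by linarith), zero_mul, mul_zero]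

theorem qP_zero_right {x : ℝ} (h : 4 / 5 ≤ x) : qP x = 0 := by
  rw [qP, smoothTransition.zero_of_nonpos (x := -20 / 3 * x + 16 / 3) (by linarith), mul_zero,
    mul_zero]

theorem qP_pi {x : ℝ} (h : 7 / 20 ≤ x) (h' : x ≤ 13 / 20) : qP x = π / 2 := by
  rw [qP, smoothTransition.one_of_one_le (by linarith), smoothTransition.one_of_one_le
    (by linarith), mul_one, mul_one]

theorem prof_fst_zero {x1 : ℝ} (x2 : ℝ) (h : x1 ≤ 3 / 10) : (prof x1 x2).1 = 0 := thP_zero h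

theorem prof_fst_pi {x1 : ℝ} (x2 : ℝ) (h : 7 / 10 ≤ x1) : (prof x1 x2).1 = π / 2 := thP_pi h

theorem prof_snd_zero_left {x1 : ℝ} (x2 : ℝ) (h : x1 ≤ 27 / 100) : (prof x1 x2).2 = 0 := by
  rw [prof_snd, pP_zero_left h, zero_mul]

theorem prof_snd_zero_right {x1 : ℝ} (x2 : ℝ) (h : 73 / 100 ≤ x1) : (prof x1 x2).2 = 0 := by
  rw [prof_snd, pP_zero_right h, zero_mul]

theorem prof_snd_zero_bot (x1 : ℝ) {x2 : ℝ} (h : x2 ≤ 1 / 5) : (prof x1 x2).2 = 0 := by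
  rw [prof_snd, qP_zero_left h, mul_zero]

theorem prof_snd_zero_top (x1 : ℝ) {x2 : ℝ} (h : 4 / 5 ≤ x2) : (prof x1 x2).2 = 0 := by
  rw [prof_snd, qP_zero_right h, mul_zero]

theorem prof_snd_pi {x1 x2 : ℝ} (h1 : 3 / 10 ≤ x1) (h2 : x1 ≤ 7 / 10) (h3 : 7 / 20 ≤ x2)
    (h4 : x2 ≤ 13 / 20) : (prof x1 x2).2 = π / 2 := by
  rw [prof_snd, pP_one h1 h2, qP_pi h3 h4, one_mul]

theorem prof_snd_nonneg (x1 x2 : ℝ) : 0 ≤ (prof x1 x2).2 := by
  have := pi_pos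
  have h := fun x => smoothTransition.nonneg x
  rw [prof_snd, pP, qP]
  have h1 := h (100 / 3 * x1 + (-9))
  have h2 := h (-100 / 3 * x1 + 73 / 3)
  have h3 := h (20 / 3 * x2 + (-4 / 3))
  have h4 := h (-20 / 3 * x2 + 16 / 3)
  positivity

theorem prof_snd_le (x1 x2 : ℝ) : (prof x1 x2).2 ≤ π / 2 := by
  have hpi := pi_pos
  have h := fun x => smoothTransition.nonneg x
  have h' := fun x => smoothTransition.le_one x
  rw [prof_snd, pP, qP]
  have a := mul_le_one₀ (h' (100 / 3 * x1 + (-9))) (h (-100 / 3 * x1 + 73 / 3)) (h' _)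
  have b := mul_le_one₀ (h' (20 / 3 * x2 + (-4 / 3))) (h (-20 / 3 * x2 + 16 / 3)) (h' _)
  have a0 := mul_nonneg (h (100 / 3 * x1 + (-9))) (h (-100 / 3 * x1 + 73 / 3))
  have b0 := mul_nonneg (h (20 / 3 * x2 + (-4 / 3))) (h (-20 / 3 * x2 + 16 / 3))
  have c : π / 2 * (smoothTransition (20 / 3 * x2 + (-4 / 3)) *
      smoothTransition (-20 / 3 * x2 + 16 / 3)) ≤ π / 2 :=
    mul_le_of_le_one_right (by positivity) b
  exact (mul_le_of_le_one_left (by positivity) a).trans c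

theorem prof_fst_nonneg (x1 x2 : ℝ) : 0 ≤ (prof x1 x2).1 := by
  have := pi_pos
  rw [prof_fst, thP]
  exact mul_nonneg (by positivity) (smoothTransition.nonneg _)

theorem prof_fst_le (x1 x2 : ℝ) : (prof x1 x2).1 ≤ π / 2 := by
  have := pi_pos
  rw [prof_fst, thP]
  exact mul_le_of_le_one_right (by positivity) (smoothTransition.le_one _)

theorem c11_profiles : ∃ (θ' p' q' : ℝ → ℝ) (C1 C2 C3 : ℝ),
    C11 thP θ' C1 ∧ C11 pP p' C2 ∧ C11 qP q' C3 := by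
  obtain ⟨s', C, hs⟩ := c11_smoothTransition
  refine ⟨_, _, _, _, _, _, (hs.comp_affine (5 / 2) (-3 / 4)).const_mul (π / 2),
    (hs.comp_affine (100 / 3) (-9)).mul (hs.comp_affine (-100 / 3) (73 / 3)),
    ((hs.comp_affine (20 / 3) (-4 / 3)).mul (hs.comp_affine (-20 / 3) (16 / 3))).const_mul (π / 2)⟩

/-! ### the cross term vanishes -/

theorem C11.abs_sum_deriv_le {f f' : ℝ → ℝ} {C : ℝ} (h : C11 f f' C) (h01 : f 0 = f 1) (m : ℕ) :
    |∑ y ∈ range (2 ^ m), f' ((y : ℝ) / 2 ^ m)| ≤ C := by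
  have tele : ∑ y ∈ range (2 ^ m), (f (((y + 1 : ℕ) : ℝ) / 2 ^ m) - f ((y : ℝ) / 2 ^ m)) = 0 := by
    rw [sum_range_sub (fun y : ℕ => f ((y : ℝ) / 2 ^ m))]
    simp [← h01]
  have hterm : ∀ y ∈ range (2 ^ m), |f (((y + 1 : ℕ) : ℝ) / 2 ^ m) - f ((y : ℝ) / 2 ^ m) -
      f' ((y : ℝ) / 2 ^ m) / 2 ^ m| ≤ C / 4 ^ m := by
    intro y _
    have := h.taylor ((y : ℝ) / 2 ^ m) (1 / 2 ^ m)
    have e1 : (((y + 1 : ℕ) : ℝ) / 2 ^ m) = (y : ℝ) / 2 ^ m + 1 / 2 ^ m := by push_cast; ring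
    have e2 : C * (1 / (2:ℝ) ^ m) ^ 2 = C / 4 ^ m := by
      rw [one_div, inv_pow, ← pow_mul, mul_comm m 2, pow_mul]; norm_num; ring
    rw [e1, ← e2]
    have e3 : f' ((y : ℝ) / 2 ^ m) / 2 ^ m = f' ((y : ℝ) / 2 ^ m) * (1 / 2 ^ m) := by ring
    rw [e3]
    exact this
  have hsum := (abs_sum_le_sum_abs _ _).trans (sum_le_sum hterm)
  rw [sum_sub_distrib, tele, zero_sub, abs_neg, ← sum_div, sum_const, card_range, nsmul_eq_mul,
    abs_div, abs_of_pos (by positivity : (0:ℝ) < 2 ^ m), div_le_iff₀ (by positivity)] at hsum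
  refine hsum.trans (le_of_eq ?_)
  have h4 : (4:ℝ) ^ m = 2 ^ m * 2 ^ m := by rw [← mul_pow]; norm_num
  push_cast
  rw [h4]
  field_simp

theorem tendsto_g12 {p p' q q' : ℝ → ℝ} {C2 C3 : ℝ} (hp : C11 p p' C2) (hq : C11 q q' C3)
    (h0 : q 0 = 0) (h1 : q 1 = 0) : Tendsto (fun m => avg m (g12 p p' q q')) atTop (𝓝 0) := by
  -- the average factorises
  have hfac : ∀ m, avg m (g12 p p' q q') =
      (∑ x ∈ range (2 ^ m), p' ((x : ℝ) / 2 ^ m) * p ((x : ℝ) / 2 ^ m)) / 2 ^ m *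
      ((∑ y ∈ range (2 ^ m), (q' ((y : ℝ) / 2 ^ m) * q ((y : ℝ) / 2 ^ m) +
        q ((y : ℝ) / 2 ^ m) * q' ((y : ℝ) / 2 ^ m))) / 2 / 2 ^ m) := by
    intro m
    have h4 : (4:ℝ) ^ m = 2 ^ m * 2 ^ m := by rw [← mul_pow]; norm_num
    rw [avg, h4, div_mul_div_comm]
    congr 1
    rw [sum_div, sum_mul_sum, sum_product]
    refine sum_congr rfl fun x _ => sum_congr rfl fun y _ => ?_
    simp only [g12]
    ring
  have hsq := hq.mul hq
  have hz := fun m => hsq.abs_sum_deriv_le (by simp [h0, h1]) m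
  have hP : ∀ m, |(∑ x ∈ range (2 ^ m), p' ((x : ℝ) / 2 ^ m) * p ((x : ℝ) / 2 ^ m)) / 2 ^ m| ≤
      C2 * C2 := by
    intro m
    rw [abs_div, abs_of_pos (by positivity : (0:ℝ) < 2 ^ m), div_le_iff₀ (by positivity)]
    refine (abs_sum_le_sum_abs _ _).trans ?_
    have : ∀ x ∈ range (2 ^ m), |p' ((x : ℝ) / 2 ^ m) * p ((x : ℝ) / 2 ^ m)| ≤ C2 * C2 := by
      intro x _
      rw [abs_mul]
      exact mul_le_mul (hp.bd' _) (hp.bd _) (abs_nonneg _) hp.nn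
    refine (sum_le_sum this).trans (le_of_eq ?_)
    rw [sum_const, card_range, nsmul_eq_mul]
    push_cast
    ring
  have hlim : Tendsto (fun k : ℕ => C2 * C2 * (4 * C3 * C3) / (2:ℝ) ^ k) atTop (𝓝 0) := by
    have := (tendsto_pow_atTop_nhds_zero_of_lt_one (r := (1/2 : ℝ)) (by norm_num)
      (by norm_num)).const_mul (C2 * C2 * (4 * C3 * C3))
    rw [mul_zero] at this
    refine this.congr fun k => ?_
    rw [one_div, inv_pow]; ring
  refine squeeze_zero_norm (fun m => ?_) hlim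
  rw [hfac, norm_mul, Real.norm_eq_abs, Real.norm_eq_abs]
  have h5 : |(∑ y ∈ range (2 ^ m), (q' ((y : ℝ) / 2 ^ m) * q ((y : ℝ) / 2 ^ m) +
        q ((y : ℝ) / 2 ^ m) * q' ((y : ℝ) / 2 ^ m))) / 2 / 2 ^ m| ≤ 4 * C3 * C3 / 2 ^ m := by
    rw [abs_div, abs_div, abs_two, abs_of_pos (by positivity : (0:ℝ) < 2 ^ m)]
    apply div_le_div_of_nonneg_right _ (by positivity)
    have := hz m
    linarith [abs_nonneg (∑ y ∈ range (2 ^ m), (q' ((y : ℝ) / 2 ^ m) * q ((y : ℝ) / 2 ^ m) +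
        q ((y : ℝ) / 2 ^ m) * q' ((y : ℝ) / 2 ^ m)))]
  calc _ ≤ C2 * C2 * (4 * C3 * C3 / 2 ^ m) :=
        mul_le_mul (hP m) h5 (abs_nonneg _) (mul_nonneg hp.nn hp.nn)
    _ = _ := by ring

/-! ### from `ℕ` ranges to the torus of classes -/

theorem prod_zmod (N : ℕ) [NeZero N] (F : ℕ → ℝ) :
    ∏ u : ZMod N, F u.val = ∏ a ∈ range N, F a := by
  refine prod_nbij' (fun u => ZMod.val u) (fun a => (a : ZMod N)) ?_ ?_ ?_ ?_ ?_
  · intro u _; exact mem_range.2 (ZMod.val_lt u)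
  · intro a _; exact mem_univ _
  · intro u _; exact ZMod.natCast_zmod_val u
  · intro a ha; exact ZMod.val_natCast_of_lt (mem_range.1 ha)
  · intro u _; rfl

theorem sum_zmod (N : ℕ) [NeZero N] (F : ℕ → ℝ) :
    ∑ u : ZMod N, F u.val = ∑ a ∈ range N, F a := by
  refine sum_nbij' (fun u => ZMod.val u) (fun a => (a : ZMod N)) ?_ ?_ ?_ ?_ ?_
  · intro u _; exact mem_range.2 (ZMod.val_lt u)
  · intro a _; exact mem_univ _
  · intro u _; exact ZMod.natCast_zmod_val u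
  · intro a ha; exact ZMod.val_natCast_of_lt (mem_range.1 ha)
  · intro u _; rfl

theorem prod_zmod2 (N : ℕ) [NeZero N] (F : ℕ → ℕ → ℝ) :
    ∏ u : ZMod N × ZMod N, F u.1.val u.2.val = ∏ a ∈ range N ×ˢ range N, F a.1 a.2 := by
  rw [Fintype.prod_prod_type, prod_product, ← prod_zmod N (fun a => ∏ b ∈ range N, F a b)]
  exact prod_congr rfl fun u _ => prod_zmod N (fun b => F u.val b)

theorem sum_zmod2 (N : ℕ) [NeZero N] (F : ℕ → ℕ → ℝ) :
    ∑ u : ZMod N × ZMod N, F u.1.val u.2.val = ∑ a ∈ range N ×ˢ range N, F a.1 a.2 := by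
  rw [Fintype.sum_prod_type, sum_product, ← sum_zmod N (fun a => ∑ b ∈ range N, F a b)]
  exact sum_congr rfl fun u _ => sum_zmod N (fun b => F u.val b)

theorem prod_blocks (a b : ℕ) (f : ℕ → ℝ) :
    ∏ u ∈ range (a * b), f u = ∏ w ∈ range b, ∏ c ∈ range a, f (c + a * w) := by
  induction b with
  | zero => simp
  | succ b ih =>
    rw [Nat.mul_succ, prod_range_add, ih, prod_range_succ]
    congr 1
    exact prod_congr rfl fun c _ => by rw [add_comm]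

theorem prod_blocks2 (a b : ℕ) (f : ℕ → ℕ → ℝ) :
    ∏ u ∈ range (a * b) ×ˢ range (a * b), f u.1 u.2 =
      ∏ w ∈ range b ×ˢ range b, ∏ c ∈ range a ×ˢ range a, f (c.1 + a * w.1) (c.2 + a * w.2) := by
  rw [prod_product, prod_product, prod_blocks]
  refine prod_congr rfl fun w _ => ?_
  simp_rw [prod_blocks a b, prod_product]
  rw [Finset.prod_comm]

/-- the two-period torus: position `mod 2^M`, class `mod 2^(M+1)` -/
theorem prod_torus (M J : ℕ) (h : J + 1 ≤ M) (F : ℕ → ℕ → ℕ → ℕ → ℝ) :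
    ∏ u : ZMod (2 ^ (M + 1)) × ZMod (2 ^ (M + 1)),
      F (u.1.val % 2 ^ M) (u.2.val % 2 ^ M) (u.1.val % 2 ^ (J + 1)) (u.2.val % 2 ^ (J + 1)) =
    (∏ u ∈ range (2 ^ M) ×ˢ range (2 ^ M),
      F u.1 u.2 (u.1 % 2 ^ (J + 1)) (u.2 % 2 ^ (J + 1))) ^ 4 := by
  rw [prod_zmod2 (2 ^ (M + 1)) (fun x y => F (x % 2 ^ M) (y % 2 ^ M) (x % 2 ^ (J + 1))
    (y % 2 ^ (J + 1))), pow_succ 2 M, prod_blocks2 (2 ^ M) 2 (fun x y => F (x % 2 ^ M) (y % 2 ^ M)
      (x % 2 ^ (J + 1)) (y % 2 ^ (J + 1)))]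
  have hd : ∀ x w : ℕ, (x + 2 ^ M * w) % 2 ^ (J + 1) = x % 2 ^ (J + 1) := by
    intro x w
    obtain ⟨k, rfl⟩ := Nat.exists_eq_add_of_le h
    rw [pow_add, mul_assoc, Nat.add_mul_mod_self_left]
  have hterm : ∀ w ∈ range 2 ×ˢ range 2, ∏ c ∈ range (2 ^ M) ×ˢ range (2 ^ M),
      F ((c.1 + 2 ^ M * w.1) % 2 ^ M) ((c.2 + 2 ^ M * w.2) % 2 ^ M)
        ((c.1 + 2 ^ M * w.1) % 2 ^ (J + 1)) ((c.2 + 2 ^ M * w.2) % 2 ^ (J + 1)) =
      ∏ u ∈ range (2 ^ M) ×ˢ range (2 ^ M),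
      F u.1 u.2 (u.1 % 2 ^ (J + 1)) (u.2 % 2 ^ (J + 1)) := by
    intro w _
    refine prod_congr rfl fun c hc => ?_
    rw [mem_product, mem_range, mem_range] at hc
    rw [hd, hd, Nat.add_mul_mod_self_left, Nat.add_mul_mod_self_left, Nat.mod_eq_of_lt hc.1,
      Nat.mod_eq_of_lt hc.2]
  rw [prod_congr rfl hterm, prod_const, card_product, card_range]

/-- position of a class modulo `2^(M+1)` inside its cell of level `M` -/
def wpos (M : ℕ) (u : ZMod (2 ^ (M + 1))) : ℝ := ((u.val % 2 ^ M : ℕ) : ℝ)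

/-- class modulo `2^(J+1)` of a class modulo `2^(M+1)` (meaningful for `J ≤ M`) -/
def clsTo (J M : ℕ) (u : ZMod (2 ^ (M + 1)) × ZMod (2 ^ (M + 1))) :
    ZMod (2 ^ (J + 1)) × ZMod (2 ^ (J + 1)) :=
  ((u.1.val : ZMod (2 ^ (J + 1))), (u.2.val : ZMod (2 ^ (J + 1))))

/-- overlap of the product vectors with fields `z`, `z'` (living on the classes modulo
`2^(J+1)`) at level `M`, with `n` contexts and floors `ι`. -/
noncomputable def overlap {ι : Type*} [Fintype ι] (n J M : ℕ)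
    (z z' : ZMod (2 ^ (J + 1)) × ZMod (2 ^ (J + 1)) → ι → Fin 2 → ℝ) : ℝ :=
  ∏ u : ZMod (2 ^ (M + 1)) × ZMod (2 ^ (M + 1)), ∏ f : ι,
    K n (prof ((wpos M u.1 + z (clsTo J M u) f 0) / 2 ^ M)
          ((wpos M u.2 + z (clsTo J M u) f 1) / 2 ^ M))
        (prof ((wpos M u.1 + z' (clsTo J M u) f 0) / 2 ^ M)
          ((wpos M u.2 + z' (clsTo J M u) f 1) / 2 ^ M))

/-- limit of the overlaps for general profile functions `θ`, `p`, `q` -/
theorem torus_tendsto {θ θ' p p' q q' : ℝ → ℝ} {C1 C2 C3 : ℝ} (hθ : C11 θ θ' C1)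
    (hp : C11 p p' C2) (hq : C11 q q' C3) (q0 : q 0 = 0) (q1 : q 1 = 0) (n : ℕ) :
    ∃ w : Fin 2 → ℝ, (∀ i, 0 ≤ w i) ∧
    ∀ (ι : Type) (_ : Fintype ι) (J : ℕ)
      (z z' : ZMod (2 ^ (J + 1)) × ZMod (2 ^ (J + 1)) → ι → Fin 2 → ℝ),
      Tendsto (fun M => ∏ u : ZMod (2 ^ (M + 1)) × ZMod (2 ^ (M + 1)), ∏ f : ι,
        K n (Phi θ p q ((wpos M u.1 + z (clsTo J M u) f 0) / 2 ^ M)
              ((wpos M u.2 + z (clsTo J M u) f 1) / 2 ^ M))
            (Phi θ p q ((wpos M u.1 + z' (clsTo J M u) f 0) / 2 ^ M)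
              ((wpos M u.2 + z' (clsTo J M u) f 1) / 2 ^ M))) atTop
        (𝓝 (exp (-(1 / 2) * ((∑ u, ∑ f, ∑ i, w i * (z u f i - z' u f i) ^ 2) /
          4 ^ (J + 1))))) := by
  obtain ⟨A11, h11⟩ := (bl_g11 hθ hp hq n).exists_avg
  obtain ⟨A22, h22⟩ := (bl_g22 hp hq).exists_avg
  have h12 := tendsto_g12 hp hq q0 q1
  have avg_nonneg : ∀ (F : ℝ → ℝ → ℝ), (∀ x y, 0 ≤ F x y) → ∀ m, 0 ≤ avg m F := by
    intro F hF m
    exact div_nonneg (sum_nonneg fun u _ => hF _ _) (by positivity)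
  have p11 : 0 ≤ A11 := ge_of_tendsto' h11 (avg_nonneg _ fun x y => by
    simp only [g11]; positivity)
  have p22 : 0 ≤ A22 := ge_of_tendsto' h22 (avg_nonneg _ fun x y => by
    simp only [g22]; positivity)
  refine ⟨![4 * A11, 4 * A22], ?_, ?_⟩
  · intro i
    fin_cases i
    · simpa using p11
    · simpa using p22
  intro ι _ J z z'
  -- the fields on `ℕ`
  set Z : ι → ℕ → ℕ → ℝ × ℝ := fun f a b =>
    (z ((a : ZMod (2 ^ (J + 1))), (b : ZMod (2 ^ (J + 1)))) f 0,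
      z ((a : ZMod (2 ^ (J + 1))), (b : ZMod (2 ^ (J + 1)))) f 1) with hZ
  set Z' : ι → ℕ → ℕ → ℝ × ℝ := fun f a b =>
    (z' ((a : ZMod (2 ^ (J + 1))), (b : ZMod (2 ^ (J + 1)))) f 0,
      z' ((a : ZMod (2 ^ (J + 1))), (b : ZMod (2 ^ (J + 1)))) f 1) with hZ'
  have hlim : ∀ f : ι, _ := fun f =>
    overlap_core hθ hp hq n (J + 1) h11 h12 h22 (Z f) (Z' f)
  have hprod := (tendsto_finsetProd (univ : Finset ι) fun f _ => hlim f).pow 4
  have hval : (∏ f : ι, exp (-(((∑ c ∈ range (2 ^ (J + 1)) ×ˢ range (2 ^ (J + 1)),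
        (A11 * ((Z f c.1 c.2).1 - (Z' f c.1 c.2).1) ^ 2 +
          0 * (2 * ((Z f c.1 c.2).1 - (Z' f c.1 c.2).1) * ((Z f c.1 c.2).2 - (Z' f c.1 c.2).2)) +
          A22 * ((Z f c.1 c.2).2 - (Z' f c.1 c.2).2) ^ 2)) / 4 ^ (J + 1)) / 2))) ^ 4 =
      exp (-(1 / 2) * ((∑ u, ∑ f, ∑ i, ![4 * A11, 4 * A22] i * (z u f i - z' u f i) ^ 2) /
          4 ^ (J + 1))) := by
    rw [← exp_sum, ← exp_nat_mul]
    congr 1
    have hs : ∀ f : ι, (∑ c ∈ range (2 ^ (J + 1)) ×ˢ range (2 ^ (J + 1)),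
        (A11 * ((Z f c.1 c.2).1 - (Z' f c.1 c.2).1) ^ 2 +
          0 * (2 * ((Z f c.1 c.2).1 - (Z' f c.1 c.2).1) * ((Z f c.1 c.2).2 - (Z' f c.1 c.2).2)) +
          A22 * ((Z f c.1 c.2).2 - (Z' f c.1 c.2).2) ^ 2)) =
        ∑ u : ZMod (2 ^ (J + 1)) × ZMod (2 ^ (J + 1)),
          (A11 * (z u f 0 - z' u f 0) ^ 2 + A22 * (z u f 1 - z' u f 1) ^ 2) := by
      intro f
      rw [← sum_zmod2 (2 ^ (J + 1)) (fun a b => (A11 * ((Z f a b).1 - (Z' f a b).1) ^ 2 +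
          0 * (2 * ((Z f a b).1 - (Z' f a b).1) * ((Z f a b).2 - (Z' f a b).2)) +
          A22 * ((Z f a b).2 - (Z' f a b).2) ^ 2))]
      refine sum_congr rfl fun u _ => ?_
      simp only [hZ, hZ', ZMod.natCast_zmod_val, Prod.mk.eta, zero_mul, add_zero]
    simp only [hs]
    rw [sum_comm (f := fun u f => ∑ i, ![4 * A11, 4 * A22] i * (z u f i - z' u f i) ^ 2)]
    simp only [Fin.sum_univ_two, Matrix.cons_val_zero, Matrix.cons_val_one]
    rw [mul_sum, sum_div, mul_sum]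
    refine sum_congr rfl fun f _ => ?_
    have : (∑ u : ZMod (2 ^ (J + 1)) × ZMod (2 ^ (J + 1)),
        (4 * A11 * (z u f 0 - z' u f 0) ^ 2 + 4 * A22 * (z u f 1 - z' u f 1) ^ 2)) =
        4 * ∑ u : ZMod (2 ^ (J + 1)) × ZMod (2 ^ (J + 1)),
        (A11 * (z u f 0 - z' u f 0) ^ 2 + A22 * (z u f 1 - z' u f 1) ^ 2) := by
      rw [mul_sum]
      exact sum_congr rfl fun u _ => by ring
    rw [this]
    push_cast
    ring
  rw [hval] at hprod
  refine hprod.congr' ?_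
  filter_upwards [eventually_ge_atTop (J + 1)] with M hM
  rw [Finset.prod_comm (s := (univ : Finset (ZMod (2 ^ (M + 1)) × ZMod (2 ^ (M + 1))))),
    ← Finset.prod_pow]
  apply Finset.prod_congr rfl
  intro f _
  have key := prod_torus M J hM (fun x y a b =>
    K n (Phi θ p q (((x : ℝ) + (Z f a b).1) / 2 ^ M) (((y : ℝ) + (Z f a b).2) / 2 ^ M))
      (Phi θ p q (((x : ℝ) + (Z' f a b).1) / 2 ^ M) (((y : ℝ) + (Z' f a b).2) / 2 ^ M)))
  rw [← key]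
  refine Finset.prod_congr rfl fun u _ => ?_
  simp only [hZ, hZ', wpos, clsTo, ZMod.natCast_mod]



/-- **AM4**: limit of the overlaps.  The weights `q` do not depend on `J`, the floors or the
fields. -/
theorem overlap_tendsto (n : ℕ) : ∃ q : Fin 2 → ℝ, (∀ i, 0 ≤ q i) ∧
    ∀ (ι : Type) (_ : Fintype ι) (J : ℕ)
      (z z' : ZMod (2 ^ (J + 1)) × ZMod (2 ^ (J + 1)) → ι → Fin 2 → ℝ),
      Tendsto (fun M => overlap n J M z z') atTop
        (𝓝 (exp (-(1 / 2) * ((∑ u, ∑ f, ∑ i, q i * (z u f i - z' u f i) ^ 2) /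
          4 ^ (J + 1))))) := by
  obtain ⟨θ', p', q', C1, C2, C3, hθ, hp, hq⟩ := c11_profiles
  exact torus_tendsto hθ hp hq (qP_zero_left (by norm_num)) (qP_zero_right (by norm_num)) n

end Vale.Agent.P196.AM
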