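import Vale.Agent.P196.AM.Defs
import Vale.Agent.P196.AM.Limit

/-!
AM4 in the definitions of `AM/Defs.lean`: a term of `Profile` and the limit of `Ov`.
-/

namespace Vale.Agent.P196.AM

open Real Filter Topology Finset

/-- angle profile: `0` for `x ≤ 1/4`, `π/2` for `3/4 ≤ x` -/
noncomputable def th0 (x : ℝ) : ℝ := π / 2 * smoothTransition (2 * x + (-1 / 2))

/-- horizontal cut-off: `0` off `[1/8, 7/8]`, `1` on `[1/4, 3/4]` -/
noncomputable def p0 (x : ℝ) : ℝ := smoothTransition (8 * x + (-1)) * smoothTransition (-8 * x + 7)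

/-- vertical profile: `0` off `[1/8, 7/8]`, `π/2` on `[3/8, 5/8]` -/
noncomputable def q0 (x : ℝ) : ℝ :=
  π / 2 * (smoothTransition (4 * x + (-1 / 2)) * smoothTransition (-4 * x + 7 / 2))

/-- the profile -/
noncomputable def P0 : Profile where
  th := th0
  B x y := p0 x * q0 y
  th_left x h := by
    rw [th0, smoothTransition.zero_of_nonpos (by linarith), mul_zero]
  th_right x h := by
    rw [th0, smoothTransition.one_of_one_le (by linarith), mul_one]
  B_zero x y h := by
    rcases h with h | h | h | h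
    · rw [p0, smoothTransition.zero_of_nonpos (by linarith), zero_mul, zero_mul]
    · rw [p0, smoothTransition.zero_of_nonpos (x := -8 * x + 7) (by linarith), mul_zero, zero_mul]
    · rw [q0, smoothTransition.zero_of_nonpos (x := 4 * y + (-1 / 2)) (by linarith), zero_mul,
        mul_zero, mul_zero]
    · rw [q0, smoothTransition.zero_of_nonpos (x := -4 * y + 7 / 2) (by linarith), mul_zero,
        mul_zero, mul_zero]
  B_one x y h1 h2 h3 h4 := by
    rw [p0, q0, smoothTransition.one_of_one_le (by linarith), smoothTransition.one_of_one_le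
      (by linarith), smoothTransition.one_of_one_le (by linarith),
      smoothTransition.one_of_one_le (by linarith), mul_one, mul_one, one_mul]

theorem c11_P0 : ∃ (θ' p' q' : ℝ → ℝ) (C1 C2 C3 : ℝ),
    C11 th0 θ' C1 ∧ C11 p0 p' C2 ∧ C11 q0 q' C3 := by
  obtain ⟨s', C, hs⟩ := c11_smoothTransition
  exact ⟨_, _, _, _, _, _, (hs.comp_affine 2 (-1 / 2)).const_mul (π / 2),
    (hs.comp_affine 8 (-1)).mul (hs.comp_affine (-8) 7),
    ((hs.comp_affine 4 (-1 / 2)).mul (hs.comp_affine (-4) (7 / 2))).const_mul (π / 2)⟩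

/-- a field on the classes modulo `2^(J+1)` seen on the classes modulo `2^(M+1)` -/
def upF (J M : ℕ) {ι : Type*} (z : Fld J ι) : Fld M ι := fun u => z (clsTo J M u)

/-- **AM4** in the notation of `AM/Defs.lean`: limit of the overlaps.  The weights `q` do not
depend on `J`, the floors or the fields. -/
theorem Ov_tendsto (n : ℕ) : ∃ q : Fin 2 → ℝ, (∀ i, 0 ≤ q i) ∧
    ∀ (ι : Type) (_ : Fintype ι) (J : ℕ) (z z' : Fld J ι),
      Tendsto (fun M => Ov P0 n (upF J M z) (upF J M z')) atTop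
        (𝓝 (exp (-(1 / 2) * ((∑ u, ∑ f, ∑ i, q i * (z u f i - z' u f i) ^ 2) /
          4 ^ (J + 1))))) := by
  obtain ⟨θ', p', q', C1, C2, C3, hθ, hp, hq⟩ := c11_P0
  exact torus_tendsto hθ hp hq (P0_aux0) (P0_aux1) n
where
  P0_aux0 : q0 0 = 0 := by
    rw [q0, smoothTransition.zero_of_nonpos (x := 4 * 0 + (-1 / 2)) (by norm_num), zero_mul,
      mul_zero]
  P0_aux1 : q0 1 = 0 := by
    rw [q0, smoothTransition.zero_of_nonpos (x := -4 * 1 + 7 / 2) (by norm_num), mul_zero,
      mul_zero]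

/-- `clsTo` is a ring homomorphism in disguise (for `J ≤ M`) -/
theorem clsTo_sub {J M : ℕ} (h : J ≤ M) (u v : Tor M) :
    clsTo J M (u - v) = clsTo J M u - clsTo J M v := by
  have hd : 2 ^ (J + 1) ∣ 2 ^ (M + 1) := pow_dvd_pow 2 (by omega)
  have key : ∀ x : ZMod (2 ^ (M + 1)), ((x.val : ℕ) : ZMod (2 ^ (J + 1))) =
      ZMod.castHom hd (ZMod (2 ^ (J + 1))) x := by
    intro x
    rw [ZMod.castHom_apply, ZMod.natCast_val]
  simp only [clsTo, key, Prod.fst_sub, Prod.snd_sub, map_sub, Prod.mk_sub_mk]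

theorem clsTo_ev {J M : ℕ} (h : J ≤ M) (d : Fin 2) : clsTo J M (ev M d) = ev J d := by
  have hd : 2 ^ (J + 1) ∣ 2 ^ (M + 1) := pow_dvd_pow 2 (by omega)
  have key : ∀ x : ZMod (2 ^ (M + 1)), ((x.val : ℕ) : ZMod (2 ^ (J + 1))) =
      ZMod.castHom hd (ZMod (2 ^ (J + 1))) x := by
    intro x
    rw [ZMod.castHom_apply, ZMod.natCast_val]
  simp only [clsTo, key, ev]
  split_ifs <;> simp only [map_one, map_zero]

theorem clsTo_cl {J M : ℕ} (h : J ≤ M) (v : ℤ × ℤ) : clsTo J M (cl M v) = cl J v := by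
  have hd : 2 ^ (J + 1) ∣ 2 ^ (M + 1) := pow_dvd_pow 2 (by omega)
  have key : ∀ x : ZMod (2 ^ (M + 1)), ((x.val : ℕ) : ZMod (2 ^ (J + 1))) =
      ZMod.castHom hd (ZMod (2 ^ (J + 1))) x := by
    intro x
    rw [ZMod.castHom_apply, ZMod.natCast_val]
  simp only [clsTo, key, cl, map_intCast]

/-- lifting commutes with the translations of one floor -/
theorem upF_tr {J M : ℕ} (h : J ≤ M) {ι : Type*} [DecidableEq ι] (f0 : ι) (d : Fin 2)
    (z : Fld J ι) : upF J M (tr f0 d z) = tr f0 d (upF J M z) := by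
  funext u f i
  simp only [upF, tr, clsTo_sub h, clsTo_ev h]

/-- lifting commutes with the permutations of the floors -/
theorem upF_pm {J M : ℕ} {ι : Type*} (s : Tor J → Equiv.Perm ι) (z : Fld J ι) :
    upF J M (pm s z) = pm (fun u => s (clsTo J M u)) (upF J M z) := by
  funext u f i
  simp only [upF, pm]

end Vale.Agent.P196.AM
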