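import Vale.Agent.P196.AM.Real
import Vale.Agent.P196.AM.LimitOv

/-!
# [AM3] bridge with [AM4]: the concrete profile, lifted fields
-/

namespace Vale.Agent.P196.AM

open Real Filter Topology

/-- the overlap of the lifted product vectors -/
theorem exists_bound {J : ℕ} {ι α : Type*} [Finite ι] [Finite α] (z : α → Fld J ι) :
    ∃ C : ℝ, 0 ≤ C ∧ ∀ a u f i, |z a u f i| ≤ C := by
  classical
  have := Fintype.ofFinite ι
  have := Fintype.ofFinite α
  refine ⟨∑ a, ∑ u, ∑ f, ∑ i, |z a u f i|, by positivity, fun a u f i => ?_⟩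
  calc |z a u f i| ≤ ∑ i, |z a u f i| :=
        Finset.single_le_sum (f := fun i => |z a u f i|) (fun i _ => abs_nonneg _)
          (Finset.mem_univ i)
    _ ≤ ∑ f, ∑ i, |z a u f i| :=
        Finset.single_le_sum (f := fun f => ∑ i, |z a u f i|)
          (fun f _ => Finset.sum_nonneg fun i _ => abs_nonneg _) (Finset.mem_univ f)
    _ ≤ ∑ u, ∑ f, ∑ i, |z a u f i| :=
        Finset.single_le_sum (f := fun u => ∑ f, ∑ i, |z a u f i|)
          (fun u _ => Finset.sum_nonneg fun f _ => Finset.sum_nonneg fun i _ => abs_nonneg _)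
          (Finset.mem_univ u)
    _ ≤ _ :=
        Finset.single_le_sum (f := fun a => ∑ u, ∑ f, ∑ i, |z a u f i|)
          (fun a _ => Finset.sum_nonneg fun u _ => Finset.sum_nonneg fun f _ =>
            Finset.sum_nonneg fun i _ => abs_nonneg _)
          (Finset.mem_univ a)

/-- for large `M` the lifted fields satisfy the bound of [AM3] -/
theorem eventually_bound {J : ℕ} {ι α : Type*} [Finite ι] [Finite α] (z : α → Fld J ι) :
    ∀ᶠ M in atTop, ∀ a u f i, |upF J M (z a) u f i| ≤ 2 ^ M / 16 := by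
  obtain ⟨C, hC0, hC⟩ := exists_bound z
  have h1 : Tendsto (fun M : ℕ => (2 : ℝ) ^ M / 16) atTop atTop :=
    (tendsto_pow_atTop_atTop_of_one_lt (by norm_num)).atTop_div_const (by norm_num)
  filter_upwards [h1.eventually_ge_atTop C] with M hM a u f i
  exact (hC a _ f i).trans hM

end Vale.Agent.P196.AM
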