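import Vale.Agent.P196.Tile.AM
import Mathlib

/-!
# [AM3] definitions: the finite product space `Om`, the product vectors `Psi`, the realisation `rz`

Coordinate `1`.  `L = 2^M`, classes `Tor M = (ZMod 2^(M+1))^2`, floors `ι`, contexts `Ctx`.
-/

namespace Vale.Agent.P196.AM

open Real

/-- the torus of classes at level `M` -/
abbrev Tor (M : ℕ) := ZMod (2 ^ (M + 1)) × ZMod (2 ^ (M + 1))

/-- displacement fields with floors, at level `M` -/
abbrev Fld (M : ℕ) (ι : Type*) := Tor M → ι → Fin 2 → ℝ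

/-- the unit vectors -/
def ev (M : ℕ) (d : Fin 2) : Tor M := if d = 0 then (1, 0) else (0, 1)

/-- the class of a vertex -/
def cl (M : ℕ) (v : ℤ × ℤ) : Tor M := ((v.1 : ZMod (2 ^ (M + 1))), (v.2 : ZMod (2 ^ (M + 1))))

/-- position of a class inside the cell: `x mod 2^M` -/
def wd (M : ℕ) (x : ZMod (2 ^ (M + 1))) : ℕ := x.val % 2 ^ M

/-- a class is farther than `R` from the lines of level `≥ M` (one coordinate) -/
def FarC (M R : ℕ) (x : ZMod (2 ^ (M + 1))) : Prop := R < wd M x ∧ wd M x + R < 2 ^ M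

section fields

variable {M : ℕ} {ι : Type*}

/-- translation of floor `f0` by `e_d` -/
def tr [DecidableEq ι] (f0 : ι) (d : Fin 2) (v : Fld M ι) : Fld M ι := fun u f i =>
  if f = f0 then v (u - ev M d) f i - (if i = d then 1 else 0) else v u f i

/-- permutation of the floors, depending on the class -/
def pm (s : Tor M → Equiv.Perm ι) (v : Fld M ι) : Fld M ι := fun u f i => v u ((s u)⁻¹ f) i

end fields

/-- profile functions (NOTE A): `th` for the side, `B` for the tag. -/
structure Profile where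
  th : ℝ → ℝ
  B : ℝ → ℝ → ℝ
  th_left : ∀ x, x ≤ 1 / 4 → th x = 0
  th_right : ∀ x, 3 / 4 ≤ x → th x = π / 2
  B_zero : ∀ x y, (x ≤ 1 / 8 ∨ 7 / 8 ≤ x ∨ y ≤ 1 / 8 ∨ 7 / 8 ≤ y) → B x y = 0
  B_one : ∀ x y, 1 / 4 ≤ x → x ≤ 3 / 4 → 3 / 8 ≤ y → y ≤ 5 / 8 → B x y = π / 2

/-- states at a site: one side for each context, and a tag -/
abbrev St (Ctx : Type*) := (Ctx → Bool) × Bool

/-- configurations -/
abbrev Om (M : ℕ) (ι Ctx : Type*) := Tor M → ι → St Ctx

/-- amplitude of a side -/
noncomputable def amp (t : ℝ) (b : Bool) : ℝ := if b then Real.sin t else Real.cos t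

section vectors

variable {Ctx : Type*} [Fintype Ctx] [DecidableEq Ctx]

/-- coherent amplitude: all sides equal -/
noncomputable def coh (t : ℝ) (f : Ctx → Bool) : ℝ :=
  ∑ b : Bool, if f = (fun _ => b) then amp t b else 0

/-- the site vector -/
noncomputable def site (t β : ℝ) (s : St Ctx) : ℝ :=
  if s.2 then Real.sin β * coh t s.1 else Real.cos β * ∏ e, amp t (s.1 e)

/-- the one site overlap -/
noncomputable def Kov (J : ℕ) (t β t' β' : ℝ) : ℝ :=
  Real.cos β * Real.cos β' * Real.cos (t - t') ^ J + Real.sin β * Real.sin β' * Real.cos (t - t')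

/-- scaled position -/
noncomputable def pos (M : ℕ) (x : ZMod (2 ^ (M + 1))) (z : ℝ) : ℝ := ((wd M x : ℝ) + z) / 2 ^ M

/-- the site vector at class `u` displaced by `z` -/
noncomputable def psi (P : Profile) (M : ℕ) (u : Tor M) (z : Fin 2 → ℝ) (s : St Ctx) : ℝ :=
  site (P.th (pos M u.1 (z 0))) (P.B (pos M u.1 (z 0)) (pos M u.2 (z 1))) s

variable {ι : Type*} [Fintype ι]

/-- the product vector with parameter field `z` -/
noncomputable def Psi (P : Profile) {M : ℕ} (z : Fld M ι) (ω : Om M ι Ctx) : ℝ :=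
  ∏ u, ∏ f, psi P M u (z u f) (ω u f)

/-- overlap of product vectors -/
noncomputable def Ov (P : Profile) (J : ℕ) {M : ℕ} (z z' : Fld M ι) : ℝ :=
  ∏ u, ∏ f, Kov J (P.th (pos M u.1 (z u f 0))) (P.B (pos M u.1 (z u f 0)) (pos M u.2 (z u f 1)))
    (P.th (pos M u.1 (z' u f 0))) (P.B (pos M u.1 (z' u f 0)) (pos M u.2 (z' u f 1)))

end vectors

/-- the realisation: the absolute position of the vertical line chosen at `(v, f)`, and the tag -/
def rz (M : ℕ) {ι Ctx : Type*} (cx : ℤ × ℤ → Ctx) (ω : Om M ι Ctx) (p : (ℤ × ℤ) × ι) : ℤ × Bool :=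
  (2 ^ M * (p.1.1 / 2 ^ M + if (ω (cl M p.1) p.2).1 (cx p.1) then 1 else 0), (ω (cl M p.1) p.2).2)

section lifts

variable {M : ℕ} {ι Ctx : Type*}

/-- flip all sides if `c` -/
def flipIf (c : Prop) [Decidable c] (s : St Ctx) : St Ctx :=
  if c then (fun e => !s.1 e, s.2) else s

theorem flipIf_flipIf (c : Prop) [Decidable c] (s : St Ctx) : flipIf c (flipIf c s) = s := by
  unfold flipIf
  by_cases h : c <;> simp [h]

/-- lift of the translation of floor `f0` by `e_d` -/
def liftT [DecidableEq ι] (f0 : ι) (d : Fin 2) : Equiv.Perm (Om M ι Ctx) where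
  toFun ω := fun u f => if f = f0 then flipIf (d = 0 ∧ wd M u.1 = 0) (ω (u - ev M d) f) else ω u f
  invFun ω := fun u f => if f = f0 then flipIf (d = 0 ∧ wd M (u + ev M d).1 = 0) (ω (u + ev M d) f)
    else ω u f
  left_inv ω := by
    funext u f
    by_cases h : f = f0
    · simp only [h, if_true, add_sub_cancel_right, flipIf_flipIf]
    · simp [h]
  right_inv ω := by
    funext u f
    by_cases h : f = f0
    · simp only [h, if_true, sub_add_cancel, flipIf_flipIf]
    · simp [h]

/-- lift of a permutation of the floors which depends on the class and on the context -/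
def liftC (s : Tor M → Ctx → Equiv.Perm ι) (s' : Tor M → Equiv.Perm ι) :
    Equiv.Perm (Om M ι Ctx) where
  toFun ω := fun u f => (fun e => (ω u ((s u e)⁻¹ f)).1 e, (ω u ((s' u)⁻¹ f)).2)
  invFun ω := fun u f => (fun e => (ω u (s u e f)).1 e, (ω u (s' u f)).2)
  left_inv ω := by funext u f; simp
  right_inv ω := by funext u f; simp

end lifts

end Vale.Agent.P196.AM
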