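import Vale.Agent.P196.AM.LimitOv

/-!
From Gaussian kernels to overlaps: finite sums (P196, amenability half).
-/

namespace Vale.Agent.P196.AM

open Real Filter Topology Finset

/-- weighted double sum of overlaps at level `M` -/
noncomputable def ovSum (n : ℕ) {ι : Type} [Fintype ι] {J : ℕ} {α : Type*} [Fintype α]
    (p : α → ℝ) (z z' : α → Fld J ι) (M : ℕ) : ℝ :=
  ∑ a, ∑ a', p a * p a' * Ov P0 n (upF J M (z a)) (upF J M (z' a'))

/-- weighted double sum of Gaussian kernels -/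
noncomputable def gSum (q : Fin 2 → ℝ) {ι : Type} [Fintype ι] {J : ℕ} {α : Type*} [Fintype α]
    (p : α → ℝ) (z z' : α → Fld J ι) : ℝ :=
  ∑ a, ∑ a', p a * p a' * exp (-(1 / 2) *
    ((∑ u, ∑ f, ∑ i, q i * (z a u f i - z' a' u f i) ^ 2) / 4 ^ (J + 1)))

/-- `q` is a weight vector for `n` contexts if the overlaps converge to the Gaussian kernels -/
def IsWeight (n : ℕ) (q : Fin 2 → ℝ) : Prop :=
  (∀ i, 0 ≤ q i) ∧ ∀ (ι : Type) (_ : Fintype ι) (J : ℕ) (z z' : Fld J ι),
      Tendsto (fun M => Ov P0 n (upF J M z) (upF J M z')) atTop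
        (𝓝 (exp (-(1 / 2) * ((∑ u, ∑ f, ∑ i, q i * (z u f i - z' u f i) ^ 2) /
          4 ^ (J + 1)))))

theorem exists_isWeight (n : ℕ) : ∃ q, IsWeight n q := Ov_tendsto n

theorem tendsto_ovSum {n : ℕ} {q : Fin 2 → ℝ} (hq : IsWeight n q) {ι : Type} [Fintype ι] {J : ℕ}
    {α : Type*} [Fintype α] (p : α → ℝ) (z z' : α → Fld J ι) :
    Tendsto (fun M => ovSum n p z z' M) atTop (𝓝 (gSum q p z z')) := by
  unfold ovSum gSum
  refine tendsto_finsetSum _ fun a _ => tendsto_finsetSum _ fun a' _ => ?_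
  exact (hq.2 ι _ J (z a) (z' a')).const_mul (p a * p a')

/-- **Finite-sum limit.**  Almost invariance for the Gaussian kernel passes to the overlaps for
all large `M`. -/
theorem eventually_ovSum {n : ℕ} {q : Fin 2 → ℝ} (hq : IsWeight n q) {ι : Type} [Fintype ι]
    {J : ℕ} {α : Type*} [Fintype α] (p : α → ℝ) (z : α → Fld J ι) {κ : Type*} [Finite κ]
    (T : κ → Fld J ι → Fld J ι) {ε : ℝ} (hε : 0 < ε) (hS : 0 < gSum q p z z)
    (hT : ∀ k, (1 - ε) * gSum q p z z ≤ gSum q p (fun a => T k (z a)) z) :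
    ∀ᶠ M in atTop, 0 < ovSum n p z z M ∧
      ∀ k, (1 - 2 * ε) * ovSum n p z z M ≤ ovSum n p (fun a => T k (z a)) z M := by
  have h0 := tendsto_ovSum hq p z z
  refine (h0.eventually (lt_mem_nhds hS)).and ?_
  rw [eventually_all]
  intro k
  have h1 := tendsto_ovSum hq p (fun a => T k (z a)) z
  have h2 := h1.sub (h0.const_mul (1 - 2 * ε))
  have h3 : 0 < gSum q p (fun a => T k (z a)) z - (1 - 2 * ε) * gSum q p z z := by
    have := hT k
    nlinarith [mul_pos hε hS]
  filter_upwards [h2.eventually (lt_mem_nhds h3)] with M hM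
  linarith

end Vale.Agent.P196.AM
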