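import Vale.Agent.P196.Defs
import Mathlib.GroupTheory.GroupAction.Basic
import Mathlib.Data.Finsupp.Basic
import Mathlib.Algebra.BigOperators.Finprod
import Mathlib.Algebra.Order.BigOperators.Ring.Finset
import Mathlib.Tactic

/-!
Amenability from an action with locally finite stabilisers and almost invariant functions.
-/

namespace Vale.Agent.P196.AM

open Classical in
/-- Foelner sets for an action, all in one orbit, lift to Foelner sets of the group when
stabilisers are locally finite. -/
theorem lift_foelner {G Y : Type*} [Group G] [MulAction G Y]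
    (hstab : ∀ (y : Y) (S : Finset G), (∀ s ∈ S, s • y = y) →
      ((Subgroup.closure (S : Set G) : Subgroup G) : Set G).Finite)
    (K : Finset G) (ε : ℝ) (A : Finset Y) (hA : A.Nonempty) (y0 : Y)
    (horb : ∀ y ∈ A, ∃ g : G, g • y0 = y)
    (hF : ∀ g ∈ K, 2 * ((A.filter (fun y => g • y ∉ A)).card : ℝ) < ε * A.card) :
    ∃ D : Finset G, D.Nonempty ∧
      ∀ g ∈ K, ((symmDiff (D.image (fun x => g * x)) D).card : ℝ) < ε * D.card := by
  -- section of the orbit map
  have hs : ∃ s : Y → G, ∀ y ∈ A, s y • y0 = y := by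
    choose! s hs using horb
    exact ⟨s, hs⟩
  obtain ⟨s, hs⟩ := hs
  -- the finitely many transition elements
  let S : Finset G := (K ×ˢ A).image (fun p => if p.1 • p.2 ∈ A then
    (s (p.1 • p.2))⁻¹ * p.1 * s p.2 else 1)
  have hSstab : ∀ t ∈ S, t • y0 = y0 := by
    intro t ht
    simp only [S, Finset.mem_image, Finset.mem_product] at ht
    obtain ⟨⟨g, y⟩, ⟨_, hy⟩, rfl⟩ := ht
    by_cases h : g • y ∈ A
    · simp only [h, if_true, mul_smul]
      rw [hs y hy, inv_smul_eq_iff, hs _ h]
    · simp [h]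
  have hfin := hstab y0 S hSstab
  have hΛstab : ∀ l ∈ Subgroup.closure (S : Set G), l • y0 = y0 := by
    intro l hl
    have : Subgroup.closure (S : Set G) ≤ MulAction.stabilizer G y0 := by
      rw [Subgroup.closure_le]
      intro t ht
      exact hSstab t (by exact_mod_cast ht)
    exact this hl
  let Λ : Finset G := hfin.toFinset
  have hΛ : ∀ l, l ∈ Λ ↔ l ∈ Subgroup.closure (S : Set G) := by
    intro l
    simp [Λ]
  have hΛne : (1 : G) ∈ Λ := by rw [hΛ]; exact Subgroup.one_mem _
  let D : Finset G := (A ×ˢ Λ).image (fun p => s p.1 * p.2)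
  have hinj : Set.InjOn (fun p : Y × G => s p.1 * p.2) (A ×ˢ Λ : Finset (Y × G)) := by
    rintro ⟨y, l⟩ h1 ⟨y', l'⟩ h2 h
    simp only [Finset.coe_product, Set.mem_prod, Finset.mem_coe] at h1 h2
    simp only at h
    have e1 : (s y * l) • y0 = y := by
      rw [mul_smul, hΛstab l ((hΛ l).1 h1.2), hs y h1.1]
    have e2 : (s y' * l') • y0 = y' := by
      rw [mul_smul, hΛstab l' ((hΛ l').1 h2.2), hs y' h2.1]
    have hy : y = y' := by rw [← e1, ← e2, h]
    subst hy
    have : l = l' := mul_left_cancel h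
    rw [this]
  have hDcard : D.card = A.card * Λ.card := by
    rw [Finset.card_image_of_injOn hinj, Finset.card_product]
  have hΛpos : 0 < Λ.card := Finset.card_pos.2 ⟨1, hΛne⟩
  refine ⟨D, ?_, ?_⟩
  · obtain ⟨a, ha⟩ := hA
    exact ⟨s a * 1, Finset.mem_image.2 ⟨(a, 1), Finset.mem_product.2 ⟨ha, hΛne⟩, rfl⟩⟩
  · intro g hg
    have hsub : (D.image (fun x => g * x)) \ D ⊆
        ((A.filter (fun y => g • y ∉ A)) ×ˢ Λ).image (fun p => g * (s p.1 * p.2)) := by
      intro x hx
      rw [Finset.mem_sdiff, Finset.mem_image] at hx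
      obtain ⟨⟨d, hd, rfl⟩, hnot⟩ := hx
      simp only [D, Finset.mem_image, Finset.mem_product] at hd
      obtain ⟨⟨y, l⟩, ⟨hy, hl⟩, rfl⟩ := hd
      refine Finset.mem_image.2 ⟨(y, l), Finset.mem_product.2 ⟨?_, hl⟩, rfl⟩
      refine Finset.mem_filter.2 ⟨hy, ?_⟩
      intro hgy
      apply hnot
      simp only [D, Finset.mem_image, Finset.mem_product]
      refine ⟨(g • y, ((s (g • y))⁻¹ * g * s y) * l), ⟨hgy, ?_⟩, ?_⟩
      · rw [hΛ]
        refine Subgroup.mul_mem _ (Subgroup.subset_closure ?_) ((hΛ l).1 hl)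
        simp only [S, Finset.coe_image, Set.mem_image, Finset.mem_coe, Finset.mem_product]
        exact ⟨(g, y), ⟨hg, hy⟩, by simp [hgy]⟩
      · simp only
        group
    have h1 : ((D.image (fun x => g * x)) \ D).card ≤
        (A.filter (fun y => g • y ∉ A)).card * Λ.card := by
      calc _ ≤ _ := Finset.card_le_card hsub
        _ ≤ _ := Finset.card_image_le
        _ = _ := Finset.card_product _ _
    have hc : (D.image (fun x => g * x)).card = D.card :=
      Finset.card_image_of_injective _ (mul_right_injective g)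
    have h2 : (D \ (D.image (fun x => g * x))).card = ((D.image (fun x => g * x)) \ D).card := by
      have e1 := Finset.card_sdiff_add_card_inter D (D.image (fun x => g * x))
      have e2 := Finset.card_sdiff_add_card_inter (D.image (fun x => g * x)) D
      rw [Finset.inter_comm] at e2
      omega
    have h3 : (symmDiff (D.image (fun x => g * x)) D).card ≤
        2 * ((A.filter (fun y => g • y ∉ A)).card * Λ.card) := by
      have : symmDiff (D.image (fun x => g * x)) D =
          ((D.image (fun x => g * x)) \ D) ∪ (D \ (D.image (fun x => g * x))) := rfl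
      rw [this]
      refine (Finset.card_union_le _ _).trans ?_
      omega
    have h4 := hF g hg
    have hΛpos' : (0 : ℝ) < Λ.card := by exact_mod_cast hΛpos
    calc ((symmDiff (D.image (fun x => g * x)) D).card : ℝ)
        ≤ (2 * ((A.filter (fun y => g • y ∉ A)).card * Λ.card) : ℕ) := by exact_mod_cast h3
      _ = (2 * ((A.filter (fun y => g • y ∉ A)).card : ℝ)) * Λ.card := by push_cast; ring
      _ < (ε * A.card) * Λ.card := by
          exact mul_lt_mul_of_pos_right h4 hΛpos'
      _ = ε * D.card := by rw [hDcard]; push_cast; ring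

/-- for natural numbers, truncated differences are sums of indicator differences -/
theorem nat_sub_eq_sum (a b M : ℕ) (hM : a ≤ M) :
    a - b = ∑ j ∈ Finset.range M, if (j < a ∧ ¬ j < b) then 1 else 0 := by
  rw [← Finset.sum_filter, Finset.sum_const, smul_eq_mul, mul_one]
  have : (Finset.range M).filter (fun j => j < a ∧ ¬ j < b) = Finset.Ico b a := by
    ext j
    simp only [Finset.mem_filter, Finset.mem_range, Finset.mem_Ico, not_lt]
    constructor
    · rintro ⟨_, h1, h2⟩; exact ⟨h2, h1⟩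
    · rintro ⟨h1, h2⟩; exact ⟨by omega, h2, h1⟩
  rw [this, Nat.card_Ico]

open Classical in
/-- Layer cake for natural valued functions: from an almost invariant natural valued function
one gets an almost invariant finite set, contained in a single orbit. -/
theorem exists_set_of_nat {G Y : Type*} [Group G] [MulAction G Y]
    (K : Finset G) (ε : ℝ) (F : Y → ℕ) (T : Finset Y) (hT : ∀ y, F y ≠ 0 → y ∈ T)
    (hF : ∑ g ∈ K, ∑ y ∈ T, 2 * ((F y - F (g • y) : ℕ) : ℝ) < ε * ∑ y ∈ T, (F y : ℝ)) :
    ∃ (A : Finset Y) (y0 : Y), A.Nonempty ∧ (∀ y ∈ A, ∃ g : G, g • y0 = y) ∧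
      ∀ g ∈ K, 2 * ((A.filter (fun y => g • y ∉ A)).card : ℝ) < ε * A.card := by
  -- orbit quotient
  let q : Y → MulAction.orbitRel.Quotient G Y := fun y => Quotient.mk'' y
  have hq : ∀ (g : G) (y : Y), q (g • y) = q y := by
    intro g y
    apply Quotient.sound'
    exact ⟨g, rfl⟩
  obtain ⟨M, hM⟩ : ∃ M, ∀ y, F y ≤ M := by
    refine ⟨∑ y ∈ T, F y, fun y => ?_⟩
    by_cases h : F y = 0
    · omega
    · exact Finset.single_le_sum (f := F) (fun _ _ => Nat.zero_le _) (hT y h)
  let O := T.image q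
  let A : MulAction.orbitRel.Quotient G Y → ℕ → Finset Y :=
    fun o j => T.filter (fun y => q y = o ∧ j < F y)
  -- total mass
  have hmass : ∑ y ∈ T, (F y : ℝ) = ∑ o ∈ O, ∑ j ∈ Finset.range M, ((A o j).card : ℝ) := by
    have h1 : ∀ y ∈ T, (F y : ℝ) = ∑ o ∈ O, ∑ j ∈ Finset.range M,
        (if q y = o ∧ j < F y then (1 : ℝ) else 0) := by
      intro y hy
      rw [Finset.sum_eq_single (q y)]
      · have := nat_sub_eq_sum (F y) 0 M (hM y)
        simp only [Nat.sub_zero, not_lt_zero, not_false_eq_true, and_true] at this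
        have h' : (F y : ℝ) = ((∑ j ∈ Finset.range M, if j < F y then 1 else 0 : ℕ) : ℝ) := by
          exact_mod_cast this
        rw [h']
        push_cast
        refine Finset.sum_congr rfl fun j _ => ?_
        simp
      · intro o _ ho
        apply Finset.sum_eq_zero
        intro j _
        rw [if_neg]
        rintro ⟨h, _⟩
        exact ho h.symm
      · intro h
        exact absurd (Finset.mem_image_of_mem q hy) h
    rw [Finset.sum_congr rfl h1, Finset.sum_comm]
    refine Finset.sum_congr rfl fun o _ => ?_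
    rw [Finset.sum_comm]
    refine Finset.sum_congr rfl fun j _ => ?_
    rw [← Finset.sum_filter, Finset.sum_const, nsmul_eq_mul, mul_one]
  -- total boundary
  have hbd : ∑ g ∈ K, ∑ y ∈ T, 2 * ((F y - F (g • y) : ℕ) : ℝ) =
      ∑ o ∈ O, ∑ j ∈ Finset.range M, ∑ g ∈ K,
        2 * (((A o j).filter (fun y => g • y ∉ A o j)).card : ℝ) := by
    have h1 : ∀ g ∈ K, ∀ y ∈ T, 2 * ((F y - F (g • y) : ℕ) : ℝ) = ∑ o ∈ O,
        ∑ j ∈ Finset.range M,
        (if y ∈ A o j ∧ g • y ∉ A o j then (2 : ℝ) else 0) := by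
      intro g _ y hy
      rw [Finset.sum_eq_single (q y)]
      · rw [nat_sub_eq_sum (F y) (F (g • y)) M (hM y)]
        push_cast
        rw [Finset.mul_sum]
        refine Finset.sum_congr rfl fun j _ => ?_
        have e1 : y ∈ A (q y) j ↔ j < F y := by
          simp [A, hy]
        have e2 : g • y ∉ A (q y) j ↔ ¬ j < F (g • y) := by
          simp only [A, Finset.mem_filter, hq, true_and, not_and]
          constructor
          · intro h hj
            exact h (hT _ (by omega)) hj
          · intro h _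
            exact h
        rw [if_congr (and_congr e1 e2) rfl rfl]
        split_ifs <;> simp
      · intro o _ ho
        apply Finset.sum_eq_zero
        intro j _
        rw [if_neg]
        rintro ⟨h, _⟩
        simp only [A, Finset.mem_filter] at h
        exact ho h.2.1.symm
      · intro h
        exact absurd (Finset.mem_image_of_mem q hy) h
    rw [Finset.sum_congr rfl fun g hg => Finset.sum_congr rfl (h1 g hg)]
    have h2 : ∀ g ∈ K, ∑ y ∈ T, ∑ o ∈ O, ∑ j ∈ Finset.range M,
        (if y ∈ A o j ∧ g • y ∉ A o j then (2 : ℝ) else 0) =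
        ∑ o ∈ O, ∑ j ∈ Finset.range M,
          2 * (((A o j).filter (fun y => g • y ∉ A o j)).card : ℝ) := by
      intro g _
      rw [Finset.sum_comm]
      refine Finset.sum_congr rfl fun o _ => ?_
      rw [Finset.sum_comm]
      refine Finset.sum_congr rfl fun j _ => ?_
      rw [← Finset.sum_filter, Finset.sum_const, nsmul_eq_mul]
      have : T.filter (fun y => y ∈ A o j ∧ g • y ∉ A o j) =
          (A o j).filter (fun y => g • y ∉ A o j) := by
        ext y
        simp only [Finset.mem_filter]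
        constructor
        · rintro ⟨_, h1, h2⟩; exact ⟨h1, h2⟩
        · rintro ⟨h1, h2⟩
          exact ⟨(Finset.mem_filter.1 h1).1, h1, h2⟩
      rw [this]
      ring
    rw [Finset.sum_congr rfl h2, Finset.sum_comm]
    refine Finset.sum_congr rfl fun o _ => ?_
    rw [Finset.sum_comm]
  -- pigeonhole
  by_contra hcon
  push Not at hcon
  have hall : ∀ o ∈ O, ∀ j ∈ Finset.range M, ε * ((A o j).card : ℝ) ≤
      ∑ g ∈ K, 2 * (((A o j).filter (fun y => g • y ∉ A o j)).card : ℝ) := by
    intro o _ j _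
    by_cases hne : (A o j).Nonempty
    · obtain ⟨y0, hy0⟩ := hne
      have horb : ∀ y ∈ A o j, ∃ g : G, g • y0 = y := by
        intro y hy
        have h1 : q y = o := (Finset.mem_filter.1 hy).2.1
        have h2 : q y0 = o := (Finset.mem_filter.1 hy0).2.1
        have h3 : q y = q y0 := h1.trans h2.symm
        have := Quotient.exact' h3
        exact this
      obtain ⟨g, hg, hle⟩ := hcon (A o j) y0 ⟨y0, hy0⟩ horb
      refine hle.trans ?_
      exact Finset.single_le_sum
        (f := fun g => 2 * (((A o j).filter (fun y => g • y ∉ A o j)).card : ℝ))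
        (fun _ _ => by positivity) hg
    · rw [Finset.not_nonempty_iff_eq_empty] at hne
      rw [hne]
      simp
  rw [hmass, hbd, Finset.mul_sum] at hF
  refine absurd hF (not_lt.2 ?_)
  refine Finset.sum_le_sum fun o ho => ?_
  rw [Finset.mul_sum]
  exact Finset.sum_le_sum fun j hj => hall o ho j hj

open Classical in
/-- real valued version: rounding -/
theorem exists_set_of_real {G Y : Type*} [Group G] [MulAction G Y]
    (K : Finset G) (ε : ℝ) (hε : 0 < ε) (F : Y → ℝ) (hF0 : ∀ y, 0 ≤ F y) (T : Finset Y)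
    (hT : ∀ y, F y ≠ 0 → y ∈ T) (hpos : 0 < ∑ y ∈ T, F y)
    (hF : ∀ g ∈ K, 4 * (K.card : ℝ) * ∑ y ∈ T, |F (g • y) - F y| ≤ ε * ∑ y ∈ T, F y) :
    ∃ (A : Finset Y) (y0 : Y), A.Nonempty ∧ (∀ y ∈ A, ∃ g : G, g • y0 = y) ∧
      ∀ g ∈ K, 2 * ((A.filter (fun y => g • y ∉ A)).card : ℝ) < ε * A.card := by
  set m := ∑ y ∈ T, F y with hm
  -- choose N large
  obtain ⟨N, hN⟩ : ∃ N : ℕ, 2 * (K.card : ℝ) * T.card + ε * T.card < ε / 2 * m * N := by
    have hc : 0 < ε / 2 * m := by positivity
    obtain ⟨N, hN⟩ := exists_nat_gt ((2 * (K.card : ℝ) * T.card + ε * T.card) / (ε / 2 * m))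
    refine ⟨N, ?_⟩
    rw [div_lt_iff₀ hc] at hN
    linarith
  let F' : Y → ℕ := fun y => ⌊(N : ℝ) * F y⌋₊
  have hNF : ∀ y, 0 ≤ (N : ℝ) * F y := fun y => mul_nonneg (Nat.cast_nonneg _) (hF0 y)
  have hlow : ∀ y, (N : ℝ) * F y - 1 ≤ (F' y : ℝ) := by
    intro y
    have := Nat.lt_floor_add_one ((N : ℝ) * F y)
    simp only [F']
    linarith
  have hup : ∀ y, (F' y : ℝ) ≤ (N : ℝ) * F y := fun y => Nat.floor_le (hNF y)
  refine exists_set_of_nat K ε F' T ?_ ?_
  · intro y hy
    apply hT
    intro h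
    apply hy
    simp [F', h]
  · have h1 : ∀ g ∈ K, ∑ y ∈ T, 2 * ((F' y - F' (g • y) : ℕ) : ℝ) ≤
        2 * (N : ℝ) * ∑ y ∈ T, |F (g • y) - F y| + 2 * T.card := by
      intro g _
      rw [Finset.mul_sum]
      have : (2 : ℝ) * T.card = ∑ y ∈ T, (2 : ℝ) := by
        rw [Finset.sum_const, nsmul_eq_mul]; ring
      rw [this, ← Finset.sum_add_distrib]
      refine Finset.sum_le_sum fun y _ => ?_
      rcases le_total (F' (g • y)) (F' y) with h | h
      · rw [Nat.cast_sub h]
        have a1 := hup y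
        have a2 := hlow (g • y)
        have a3 : F y - F (g • y) ≤ |F (g • y) - F y| := by
          rw [abs_sub_comm]; exact le_abs_self _
        have a4 : (N : ℝ) * (F y - F (g • y)) ≤ N * |F (g • y) - F y| :=
          mul_le_mul_of_nonneg_left a3 (Nat.cast_nonneg _)
        nlinarith
      · rw [Nat.sub_eq_zero_of_le h]
        have : 0 ≤ (N : ℝ) * |F (g • y) - F y| :=
          mul_nonneg (Nat.cast_nonneg _) (abs_nonneg _)
        push_cast
        nlinarith
    have h2 : ∑ g ∈ K, ∑ y ∈ T, 2 * ((F' y - F' (g • y) : ℕ) : ℝ) ≤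
        (N : ℝ) * (ε / 2 * m) + 2 * K.card * T.card := by
      have h3 : ∀ g ∈ K, (K.card : ℝ) * ∑ y ∈ T, 2 * ((F' y - F' (g • y) : ℕ) : ℝ) ≤
          (N : ℝ) * (ε / 2 * m) + 2 * K.card * T.card := by
        intro g hg
        have a1 := h1 g hg
        have a2 := hF g hg
        have a3 : (0 : ℝ) ≤ K.card := Nat.cast_nonneg _
        have a4 := mul_le_mul_of_nonneg_left a1 a3
        have a5 : (N : ℝ) * (4 * (K.card : ℝ) * ∑ y ∈ T, |F (g • y) - F y|) ≤
            N * (ε * m) := mul_le_mul_of_nonneg_left a2 (Nat.cast_nonneg _)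
        nlinarith
      rcases K.eq_empty_or_nonempty with hK | hK
      · subst hK
        simp
        positivity
      · have hKc : (0 : ℝ) < K.card := by exact_mod_cast Finset.card_pos.2 hK
        have h4 : (K.card : ℝ) * ∑ g ∈ K, ∑ y ∈ T, 2 * ((F' y - F' (g • y) : ℕ) : ℝ) ≤
            K.card * ((N : ℝ) * (ε / 2 * m) + 2 * K.card * T.card) := by
          rw [Finset.mul_sum]
          calc _ ≤ ∑ g ∈ K, ((N : ℝ) * (ε / 2 * m) + 2 * K.card * T.card) :=
                Finset.sum_le_sum h3
            _ = _ := by rw [Finset.sum_const, nsmul_eq_mul]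
        exact le_of_mul_le_mul_left h4 hKc
    have h5 : (N : ℝ) * m - T.card ≤ ∑ y ∈ T, (F' y : ℝ) := by
      have : (N : ℝ) * m - T.card = ∑ y ∈ T, ((N : ℝ) * F y - 1) := by
        rw [Finset.sum_sub_distrib, ← Finset.mul_sum, Finset.sum_const, nsmul_eq_mul, mul_one]
      rw [this]
      exact Finset.sum_le_sum fun y _ => hlow y
    have h6 := mul_le_mul_of_nonneg_left h5 hε.le
    nlinarith

open Classical in
/-- **Amenability criterion** (Reiter version, `l^1`).  A group acting with locally finite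
point stabilisers, such that there are nonzero finitely supported nonnegative functions which
are almost invariant in `l^1`, is amenable. -/
theorem isAmenable_of_l1 {G Y : Type*} [Group G] [MulAction G Y]
    (hstab : ∀ (y : Y) (S : Finset G), (∀ s ∈ S, s • y = y) →
      ((Subgroup.closure (S : Set G) : Subgroup G) : Set G).Finite)
    (hinv : ∀ (K : Finset G) (δ : ℝ), 0 < δ → ∃ (F : Y → ℝ) (T : Finset Y),
      (∀ y, 0 ≤ F y) ∧ (∀ y, F y ≠ 0 → y ∈ T) ∧ 0 < ∑ y ∈ T, F y ∧
      ∀ g ∈ K, ∑ y ∈ T, |F (g • y) - F y| ≤ δ * ∑ y ∈ T, F y) :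
    Vale.Agent.P196.IsAmenable G := by
  intro K ε hε
  rcases K.eq_empty_or_nonempty with hK | hK
  · exact ⟨{1}, Finset.singleton_nonempty _, by simp [hK]⟩
  have hKc : (0 : ℝ) < K.card := by exact_mod_cast Finset.card_pos.2 hK
  obtain ⟨F, T, h0, hT, hpos, hF⟩ := hinv K (ε / (4 * K.card)) (by positivity)
  obtain ⟨A, y0, hA, horb, hA2⟩ := exists_set_of_real K ε hε F h0 T hT hpos (by
    intro g hg
    have := hF g hg
    calc 4 * (K.card : ℝ) * ∑ y ∈ T, |F (g • y) - F y|
        ≤ 4 * (K.card : ℝ) * (ε / (4 * K.card) * ∑ y ∈ T, F y) :=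
          mul_le_mul_of_nonneg_left this (by positivity)
      _ = ε * ∑ y ∈ T, F y := by field_simp)
  exact lift_foelner hstab K ε A hA y0 horb hA2

open Classical in
/-- **Amenability criterion** (`l^2` version). -/
theorem isAmenable_of_l2 {G Y : Type*} [Group G] [MulAction G Y]
    (hstab : ∀ (y : Y) (S : Finset G), (∀ s ∈ S, s • y = y) →
      ((Subgroup.closure (S : Set G) : Subgroup G) : Set G).Finite)
    (hinv : ∀ (K : Finset G) (δ : ℝ), 0 < δ → ∃ (f : Y → ℝ) (T : Finset Y),
      (∀ y, f y ≠ 0 → y ∈ T) ∧ 0 < ∑ y ∈ T, f y ^ 2 ∧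
      ∀ g ∈ K, ∑ y ∈ T, (f (g • y) - f y) ^ 2 ≤ δ * ∑ y ∈ T, f y ^ 2) :
    Vale.Agent.P196.IsAmenable G := by
  refine isAmenable_of_l1 hstab ?_
  intro K δ hδ
  obtain ⟨f, T, hT, hpos, hf⟩ := hinv K (δ ^ 2 / 4) (by positivity)
  refine ⟨fun y => f y ^ 2, T, fun y => sq_nonneg _, fun y hy => hT y (fun h => hy (by simp [h])),
    hpos, ?_⟩
  intro g hg
  set m := ∑ y ∈ T, f y ^ 2 with hm
  -- the sum of f (g y)^2 over T is at most m
  have hle : ∑ y ∈ T, f (g • y) ^ 2 ≤ m := by
    have hinj : Set.InjOn (fun y => g • y) (T : Set Y) := fun a _ b _ h => by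
      simpa using h
    calc ∑ y ∈ T, f (g • y) ^ 2 = ∑ z ∈ T.image (fun y => g • y), f z ^ 2 := by
          rw [Finset.sum_image]
          intro a _ b _ h
          simpa using h
      _ = ∑ z ∈ (T.image (fun y => g • y)).filter (fun z => z ∈ T), f z ^ 2 := by
          rw [Finset.sum_filter_of_ne]
          intro z _ hz
          apply hT
          intro h
          apply hz
          simp [h]
      _ ≤ m := by
          refine Finset.sum_le_sum_of_subset_of_nonneg ?_ fun _ _ _ => sq_nonneg _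
          intro z hz
          exact (Finset.mem_filter.1 hz).2
  have hcs := Finset.sum_mul_sq_le_sq_mul_sq T (fun y => |f (g • y) - f y|)
    (fun y => |f (g • y) + f y|)
  have h1 : ∑ y ∈ T, |f (g • y) ^ 2 - f y ^ 2| =
      ∑ y ∈ T, |f (g • y) - f y| * |f (g • y) + f y| := by
    refine Finset.sum_congr rfl fun y _ => ?_
    rw [← abs_mul]
    congr 1
    ring
  have h2 : ∑ y ∈ T, |f (g • y) - f y| ^ 2 ≤ δ ^ 2 / 4 * m := by
    simpa only [sq_abs] using hf g hg
  have h3 : ∑ y ∈ T, |f (g • y) + f y| ^ 2 ≤ 4 * m := by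
    calc ∑ y ∈ T, |f (g • y) + f y| ^ 2 ≤ ∑ y ∈ T, (2 * f (g • y) ^ 2 + 2 * f y ^ 2) := by
          refine Finset.sum_le_sum fun y _ => ?_
          rw [sq_abs]
          nlinarith [sq_nonneg (f (g • y) - f y)]
      _ = 2 * ∑ y ∈ T, f (g • y) ^ 2 + 2 * m := by
          rw [Finset.sum_add_distrib, ← Finset.mul_sum, ← Finset.mul_sum]
      _ ≤ 4 * m := by linarith
  have h4 : (∑ y ∈ T, |f (g • y) - f y| * |f (g • y) + f y|) ^ 2 ≤ (δ * m) ^ 2 := by
    refine hcs.trans ?_
    have hn : 0 ≤ ∑ y ∈ T, |f (g • y) + f y| ^ 2 :=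
      Finset.sum_nonneg fun _ _ => sq_nonneg _
    calc _ ≤ (δ ^ 2 / 4 * m) * (4 * m) := by
          apply mul_le_mul h2 h3 hn
          have := hpos.le
          positivity
      _ = (δ * m) ^ 2 := by ring
  show ∑ y ∈ T, |f (g • y) ^ 2 - f y ^ 2| ≤ δ * m
  rw [h1]
  exact le_of_sq_le_sq h4 (by have := hpos.le; positivity)

end Vale.Agent.P196.AM
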