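import Mathlib.GroupTheory.FreeGroup.Basic
import Mathlib.GroupTheory.GroupAction.Basic
import Mathlib.GroupTheory.QuotientGroup.Basic
import Mathlib.Data.Set.Card
import Mathlib.Data.Fintype.Perm
import Mathlib.Tactic

/-!
A finitely generated group acting faithfully with orbits of bounded size is finite.
-/

namespace Vale.Agent.P196.AM

open Classical in
/-- A finitely generated group acting faithfully with orbits of bounded size is finite. -/
theorem finite_closure_of_orbits {G X : Type*} [Group G] [MulAction G X] [FaithfulSMul G X]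
    (S : Finset G) (N : ℕ)
    (hN : ∀ x : X, ∃ O : Finset X, O.card ≤ N ∧ x ∈ O ∧ ∀ s ∈ S, ∀ y ∈ O, s • y ∈ O) :
    ((Subgroup.closure (S : Set G) : Subgroup G) : Set G).Finite := by
  choose O hcard hmem hinv using hN
  -- generators permute O x
  have hinj : ∀ s ∈ S, ∀ x, ∀ y, s • y ∈ O x → y ∈ O x := by
    intro s hs x y hy
    -- s maps O x injectively into itself hence onto
    have himg : (O x).image (fun y => s • y) = O x := by
      apply Finset.eq_of_subset_of_card_le
      · intro z hz
        obtain ⟨y, hy, rfl⟩ := Finset.mem_image.1 hz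
        exact hinv x s hs y hy
      · rw [Finset.card_image_of_injective _ (MulAction.injective s)]
    rw [← himg, Finset.mem_image] at hy
    obtain ⟨y', hy', h⟩ := hy
    have : y' = y := MulAction.injective s h
    exact this ▸ hy'
  -- embeddings of O x in Fin N
  have hemb : ∀ x, ∃ e : X → Fin N ⊕ Unit, Set.InjOn e (O x) ∧ ∀ y ∈ O x, (e y).isLeft := by
    intro x
    have hle : Fintype.card (O x) ≤ Fintype.card (Fin N) := by simpa using hcard x
    obtain ⟨f⟩ := Function.Embedding.nonempty_of_card_le hle
    refine ⟨fun y => if h : y ∈ O x then Sum.inl (f ⟨y, h⟩) else Sum.inr (), ?_, ?_⟩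
    · intro a ha b hb hab
      have ha' : a ∈ O x := ha
      have hb' : b ∈ O x := hb
      simp only [ha', hb', dif_pos, Sum.inl.injEq] at hab
      have := f.injective hab
      simpa using this
    · intro y hy
      simp [hy]
  choose e heinj _ using hemb
  -- for each x, permutation of Fin N ⊕ Unit attached to a generator
  let T := S → Equiv.Perm (Fin N ⊕ Unit)
  have hperm : ∀ x, ∃ t : T, ∀ s : S, ∀ y ∈ O x, t s (e x y) = e x ((s : G) • y) := by
    intro x
    have : ∀ s : S, ∃ p : Equiv.Perm (Fin N ⊕ Unit), ∀ y ∈ O x, p (e x y) = e x ((s : G) • y) := by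
      intro s
      -- partial injection on the image
      let A : Set (Fin N ⊕ Unit) := e x '' (O x : Set X)
      let g : A → Fin N ⊕ Unit := fun a => e x ((s : G) • (Classical.choose a.2))
      have hg : ∀ y (hy : y ∈ O x), g ⟨e x y, ⟨y, hy, rfl⟩⟩ = e x ((s : G) • y) := by
        intro y hy
        have h := Classical.choose_spec (⟨y, hy, rfl⟩ : e x y ∈ e x '' (O x : Set X))
        have : Classical.choose (⟨y, hy, rfl⟩ : e x y ∈ e x '' (O x : Set X)) = y :=
          heinj x h.1 hy h.2
        simp only [g]
        rw [this]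
      have hginj : Function.Injective g := by
        rintro ⟨_, y, hy, rfl⟩ ⟨_, z, hz, rfl⟩ h
        rw [hg y hy, hg z hz] at h
        have h1 := heinj x (hinv x s s.2 y hy) (hinv x s s.2 z hz) h
        have h2 : y = z := MulAction.injective (s : G) h1
        subst h2
        rfl
      obtain ⟨p, hp⟩ := Equiv.Perm.exists_extending_pair (fun a : A => (a : Fin N ⊕ Unit)) g
        Subtype.val_injective hginj
      refine ⟨p, fun y hy => ?_⟩
      have := hp ⟨e x y, ⟨y, hy, rfl⟩⟩
      rw [hg y hy] at this
      exact this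
    choose t ht using this
    exact ⟨t, ht⟩
  choose t ht using hperm
  let φ : FreeGroup S →* G := FreeGroup.lift (fun s : S => (s : G))
  let ψ : FreeGroup S →* (T → Equiv.Perm (Fin N ⊕ Unit)) :=
    FreeGroup.lift (fun s : S => fun u : T => u s)
  have hψ : ∀ (w : FreeGroup S) (x y : X), y ∈ O x →
      (φ w • y ∈ O x ∧ ψ w (t x) (e x y) = e x (φ w • y)) := by
    intro w
    induction w using FreeGroup.induction_on with
    | C1 =>
      intro x y hy
      simp [hy]
    | of s =>
      intro x y hy
      refine ⟨?_, ?_⟩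
      · simpa [φ] using hinv x s s.2 y hy
      · simp only [φ, ψ, FreeGroup.lift_apply_of]
        exact ht x s y hy
    | inv_of s _ =>
      intro x y hy
      have hmem' : (s : G)⁻¹ • y ∈ O x := by
        apply hinj s s.2 x
        simpa using hy
      refine ⟨?_, ?_⟩
      · simpa [φ] using hmem'
      · simp only [φ, ψ, map_inv, FreeGroup.lift_apply_of, Pi.inv_apply]
        rw [Equiv.Perm.inv_eq_iff_eq]
        have := ht x s _ hmem'
        simp only [smul_inv_smul] at this
        exact this.symm
    | mul a b ha hb =>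
      intro x y hy
      obtain ⟨h1, h2⟩ := hb x y hy
      obtain ⟨h3, h4⟩ := ha x _ h1
      refine ⟨?_, ?_⟩
      · simpa [mul_smul] using h3
      · rw [map_mul, Pi.mul_apply, Equiv.Perm.mul_apply, h2, h4, map_mul, mul_smul]
  have hker : ψ.ker ≤ φ.ker := by
    intro w hw
    rw [MonoidHom.mem_ker] at hw ⊢
    apply FaithfulSMul.eq_of_smul_eq_smul (α := X)
    intro y
    obtain ⟨h1, h2⟩ := hψ w y y (hmem y)
    rw [hw] at h2
    simp only [Pi.one_apply, Equiv.Perm.one_apply] at h2
    rw [one_smul]
    exact (heinj y (hmem y) h1 h2).symm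
  -- range of φ is finite
  have hfin : Finite (FreeGroup S ⧸ ψ.ker) :=
    Finite.of_injective _ (QuotientGroup.kerLift_injective ψ)
  let Φ : FreeGroup S ⧸ ψ.ker →* G := QuotientGroup.lift ψ.ker φ hker
  have hrange : (Set.range Φ).Finite := Set.finite_range Φ
  refine hrange.subset ?_
  intro g hg
  have : (Subgroup.closure (S : Set G) : Subgroup G) ≤ φ.range := by
    rw [Subgroup.closure_le]
    intro s hs
    exact ⟨FreeGroup.of ⟨s, hs⟩, by simp [φ]⟩
  obtain ⟨w, rfl⟩ := this hg
  exact ⟨(w : FreeGroup S ⧸ ψ.ker), by simp [Φ]⟩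

end Vale.Agent.P196.AM
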