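import Vale.Agent.P196.AM.LimitOv
import Vale.Agent.P196.H354.Sum
import Vale.Agent.P196.H964.AM7b

/-!
The hypothesis `hlim` of `H964.AI_fst_of` for the concrete profile `P0`.
-/

namespace Vale.Agent.P196.AM

open Filter Topology

theorem exists_hlim (Ctx : Type) [Fintype Ctx] [DecidableEq Ctx] [Nonempty Ctx] :
    ∃ q : Fin 2 → ℝ, (∀ i, 0 ≤ q i) ∧ ∀ (ι : Type) [Fintype ι] [DecidableEq ι] (J : ℕ)
      (z z' : Fld J ι), Tendsto (fun M => ∑ ω : Om M ι Ctx,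
        Psi P0 (H964.pull J M z) ω * Psi P0 (H964.pull J M z') ω) atTop
        (𝓝 (Real.exp (-(1/2) * H964.nrm q (z - z')))) := by
  obtain ⟨q, hq, h⟩ := Ov_tendsto (Fintype.card Ctx)
  refine ⟨q, hq, fun ι _ _ J z z' => ?_⟩
  simp_rw [sum_Psi]
  exact h ι inferInstance J z z'

end Vale.Agent.P196.AM
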