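import Mathlib.Analysis.SpecialFunctions.Trigonometric.Bounds
import Mathlib.Analysis.SpecialFunctions.Log.Deriv
import Mathlib.Tactic

/-!
The one-site overlap kernel of the product vectors (P196, amenability half) and its
second order expansion.
-/

namespace Vale.Agent.P196.AM

open Real

/-- one-site overlap of the site vectors with profile values `a = (θ, B)` and `b = (θ', B')`,
with `n` contexts. -/
noncomputable def K (n : ℕ) (a b : ℝ × ℝ) : ℝ :=
  cos a.2 * cos b.2 * cos (a.1 - b.1) ^ n + sin a.2 * sin b.2 * cos (a.1 - b.1)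

theorem one_sub_pow_abs_le (n : ℕ) {c : ℝ} (h0 : -1 ≤ c) (h1 : c ≤ 1) :
    |1 - c ^ n| ≤ n * (1 - c) := by
  induction n with
  | zero => simp
  | succ n ih =>
    have e : 1 - c ^ (n + 1) = (1 - c ^ n) + c ^ n * (1 - c) := by ring
    rw [e]
    have hc : |c ^ n| ≤ 1 := by
      rw [abs_pow]; exact pow_le_one₀ (abs_nonneg c) (abs_le.2 ⟨h0, h1⟩)
    calc _ ≤ |1 - c ^ n| + |c ^ n * (1 - c)| := abs_add_le _ _
      _ ≤ n * (1 - c) + 1 * (1 - c) := by
          rw [abs_mul, abs_of_nonneg (by linarith : (0:ℝ) ≤ 1 - c)]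
          exact add_le_add ih (mul_le_mul_of_nonneg_right hc (by linarith))
      _ = _ := by push_cast; ring

theorem one_sub_pow_expand (n : ℕ) {c : ℝ} (h0 : -1 ≤ c) (h1 : c ≤ 1) :
    |1 - c ^ n - n * (1 - c)| ≤ n ^ 2 * (1 - c) ^ 2 := by
  induction n with
  | zero => simp
  | succ n ih =>
    have e : 1 - c ^ (n + 1) - ((n + 1 : ℕ) : ℝ) * (1 - c) =
        (1 - c ^ n - n * (1 - c)) - (1 - c ^ n) * (1 - c) := by push_cast; ring
    rw [e]
    have h2 := one_sub_pow_abs_le n h0 h1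
    have hc : (0:ℝ) ≤ 1 - c := by linarith
    have hn : (0:ℝ) ≤ n := Nat.cast_nonneg n
    calc _ ≤ |1 - c ^ n - n * (1 - c)| + |(1 - c ^ n) * (1 - c)| := abs_sub _ _
      _ ≤ n ^ 2 * (1 - c) ^ 2 + n * (1 - c) * (1 - c) := by
          rw [abs_mul, abs_of_nonneg hc]
          exact add_le_add ih (mul_le_mul_of_nonneg_right h2 hc)
      _ ≤ _ := by push_cast; nlinarith [mul_nonneg hn (sq_nonneg (1 - c)), sq_nonneg (1 - c)]

theorem one_sub_cos_expand (x : ℝ) : |1 - cos x - x ^ 2 / 2| ≤ 3 * |x| ^ 3 := by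
  rcases le_or_gt |x| 1 with h | h
  · have := cos_bound h
    have e : 1 - cos x - x ^ 2 / 2 = -(cos x - (1 - x ^ 2 / 2)) := by ring
    rw [e, abs_neg]
    refine this.trans ?_
    have h3 : |x| ^ 4 ≤ |x| ^ 3 := pow_le_pow_of_le_one (abs_nonneg x) h (by norm_num)
    nlinarith [pow_nonneg (abs_nonneg x) 3]
  · have h1 := cos_le_one x
    have h2 := neg_one_le_cos x
    have h3 : |x| ^ 2 ≤ |x| ^ 3 := pow_le_pow_right₀ h.le (by norm_num)
    have h4 : (1:ℝ) ≤ |x| ^ 2 := one_le_pow₀ h.le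
    rw [← sq_abs x]
    rw [abs_le]
    constructor <;> nlinarith

/-- global second order expansion of the kernel -/
theorem K_expand (n : ℕ) (a b : ℝ × ℝ) :
    |1 - K n a b - ((a.2 - b.2) ^ 2 + (n * cos a.2 ^ 2 + sin a.2 ^ 2) * (a.1 - b.1) ^ 2) / 2| ≤
      3 * |a.2 - b.2| ^ 3 + (n ^ 2 / 4) * |a.1 - b.1| ^ 4 + (3 * n + 3) * |a.1 - b.1| ^ 3
        + (n + 1) / 2 * (|a.2 - b.2| * |a.1 - b.1| ^ 2) := by
  obtain ⟨x, B⟩ := a
  obtain ⟨y, D⟩ := b
  simp only [K]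
  set δ := x - y with hδ
  set ε := B - D with hε
  have hn : (0:ℝ) ≤ n := Nat.cast_nonneg n
  have c0 := neg_one_le_cos δ
  have c1 := cos_le_one δ
  have u0 : 0 ≤ 1 - cos δ := by linarith
  have u1 : 1 - cos δ ≤ δ ^ 2 / 2 := by have := one_sub_sq_div_two_le_cos (x := δ); linarith
  have E1 := one_sub_cos_expand ε
  have E2 := one_sub_cos_expand δ
  have E3 := one_sub_pow_expand n c0 c1
  have hcB : |cos B| ≤ 1 := abs_cos_le_one B
  have hcD : |cos D| ≤ 1 := abs_cos_le_one D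
  have hsB : |sin B| ≤ 1 := abs_sin_le_one B
  have hsD : |sin D| ≤ 1 := abs_sin_le_one D
  have dc : |cos D - cos B| ≤ |ε| := by
    rw [abs_sub_comm]; exact abs_cos_sub_cos_le B D
  have ds : |sin D - sin B| ≤ |ε| := by
    rw [abs_sub_comm]; exact abs_sin_sub_sin_le B D
  have e : 1 - (cos B * cos D * cos δ ^ n + sin B * sin D * cos δ) -
      (ε ^ 2 + (n * cos B ^ 2 + sin B ^ 2) * δ ^ 2) / 2 =
      (1 - cos ε - ε ^ 2 / 2)
      + cos B * cos D * (1 - cos δ ^ n - n * (1 - cos δ))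
      + cos B * cos D * n * (1 - cos δ - δ ^ 2 / 2)
      + cos B * (cos D - cos B) * (n * (δ ^ 2 / 2))
      + sin B * sin D * (1 - cos δ - δ ^ 2 / 2)
      + sin B * (sin D - sin B) * (δ ^ 2 / 2) := by
    have : cos ε = cos B * cos D + sin B * sin D := cos_sub B D
    rw [this]; ring
  rw [e]
  have q1 : |cos B * cos D * (1 - cos δ ^ n - n * (1 - cos δ))| ≤ n ^ 2 / 4 * |δ| ^ 4 := by
    rw [abs_mul, abs_mul]
    have : |cos B| * |cos D| ≤ 1 := mul_le_one₀ hcB (abs_nonneg _) hcD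
    calc _ ≤ 1 * (n ^ 2 * (1 - cos δ) ^ 2) := mul_le_mul this E3 (abs_nonneg _) zero_le_one
      _ ≤ n ^ 2 / 4 * |δ| ^ 4 := by
          have h4 : |δ| ^ 4 = (δ ^ 2) ^ 2 := by
            calc |δ| ^ 4 = (|δ| ^ 2) ^ 2 := by ring
              _ = (δ ^ 2) ^ 2 := by rw [sq_abs]
          rw [h4]
          have : (1 - cos δ) ^ 2 ≤ (δ ^ 2 / 2) ^ 2 := pow_le_pow_left₀ u0 u1 2
          nlinarith [mul_le_mul_of_nonneg_left this (sq_nonneg (n:ℝ))]
  have q2 : |cos B * cos D * n * (1 - cos δ - δ ^ 2 / 2)| ≤ n * (3 * |δ| ^ 3) := by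
    rw [abs_mul, abs_mul, abs_mul, Nat.abs_cast]
    have h5 : |cos B| * |cos D| ≤ 1 := mul_le_one₀ hcB (abs_nonneg _) hcD
    have h6 : |cos B| * |cos D| * n ≤ n := mul_le_of_le_one_left hn h5
    exact mul_le_mul h6 E2 (abs_nonneg _) hn
  have q3 : |cos B * (cos D - cos B) * (n * (δ ^ 2 / 2))| ≤ n / 2 * (|ε| * |δ| ^ 2) := by
    rw [abs_mul, abs_mul, abs_of_nonneg (by positivity : (0:ℝ) ≤ n * (δ ^ 2 / 2)), sq_abs]
    have : |cos B| * |cos D - cos B| ≤ 1 * |ε| := mul_le_mul hcB dc (abs_nonneg _) zero_le_one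
    calc _ ≤ 1 * |ε| * (n * (δ ^ 2 / 2)) := mul_le_mul_of_nonneg_right this (by positivity)
      _ = _ := by ring
  have q4 : |sin B * sin D * (1 - cos δ - δ ^ 2 / 2)| ≤ 3 * |δ| ^ 3 := by
    rw [abs_mul, abs_mul]
    have : |sin B| * |sin D| ≤ 1 := mul_le_one₀ hsB (abs_nonneg _) hsD
    calc _ ≤ 1 * (3 * |δ| ^ 3) := mul_le_mul this E2 (abs_nonneg _) zero_le_one
      _ = _ := one_mul _
  have q5 : |sin B * (sin D - sin B) * (δ ^ 2 / 2)| ≤ 1 / 2 * (|ε| * |δ| ^ 2) := by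
    rw [abs_mul, abs_mul, abs_of_nonneg (by positivity : (0:ℝ) ≤ (δ ^ 2 / 2)), sq_abs]
    have : |sin B| * |sin D - sin B| ≤ 1 * |ε| := mul_le_mul hsB ds (abs_nonneg _) zero_le_one
    calc _ ≤ 1 * |ε| * (δ ^ 2 / 2) := mul_le_mul_of_nonneg_right this (by positivity)
      _ = _ := by ring
  have t1 := abs_add_le ((1 - cos ε - ε ^ 2 / 2)
      + cos B * cos D * (1 - cos δ ^ n - n * (1 - cos δ))
      + cos B * cos D * n * (1 - cos δ - δ ^ 2 / 2)
      + cos B * (cos D - cos B) * (n * (δ ^ 2 / 2))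
      + sin B * sin D * (1 - cos δ - δ ^ 2 / 2)) (sin B * (sin D - sin B) * (δ ^ 2 / 2))
  have t2 := abs_add_le ((1 - cos ε - ε ^ 2 / 2)
      + cos B * cos D * (1 - cos δ ^ n - n * (1 - cos δ))
      + cos B * cos D * n * (1 - cos δ - δ ^ 2 / 2)
      + cos B * (cos D - cos B) * (n * (δ ^ 2 / 2))) (sin B * sin D * (1 - cos δ - δ ^ 2 / 2))
  have t3 := abs_add_le ((1 - cos ε - ε ^ 2 / 2)
      + cos B * cos D * (1 - cos δ ^ n - n * (1 - cos δ))
      + cos B * cos D * n * (1 - cos δ - δ ^ 2 / 2))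
      (cos B * (cos D - cos B) * (n * (δ ^ 2 / 2)))
  have t4 := abs_add_le ((1 - cos ε - ε ^ 2 / 2)
      + cos B * cos D * (1 - cos δ ^ n - n * (1 - cos δ)))
      (cos B * cos D * n * (1 - cos δ - δ ^ 2 / 2))
  have t5 := abs_add_le (1 - cos ε - ε ^ 2 / 2)
      (cos B * cos D * (1 - cos δ ^ n - n * (1 - cos δ)))
  linarith

theorem abs_K_le_one (n : ℕ) (a b : ℝ × ℝ) : |K n a b| ≤ 1 := by
  obtain ⟨x, B⟩ := a
  obtain ⟨y, D⟩ := b
  simp only [K]
  have c1 : |cos (x - y)| ≤ 1 := abs_cos_le_one _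
  have c2 : |cos (x - y) ^ n| ≤ 1 := by
    rw [abs_pow]; exact pow_le_one₀ (abs_nonneg _) c1
  have h1 : |cos B * cos D * cos (x - y) ^ n| ≤ |cos B| * |cos D| := by
    rw [abs_mul, abs_mul]; exact mul_le_of_le_one_right (by positivity) c2
  have h2 : |sin B * sin D * cos (x - y)| ≤ |sin B| * |sin D| := by
    rw [abs_mul, abs_mul]; exact mul_le_of_le_one_right (by positivity) c1
  have h3 := abs_add_le (cos B * cos D * cos (x - y) ^ n) (sin B * sin D * cos (x - y))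
  have s1 := sin_sq_add_cos_sq B
  have s2 := sin_sq_add_cos_sq D
  rw [← sq_abs (sin B), ← sq_abs (cos B)] at s1
  rw [← sq_abs (sin D), ← sq_abs (cos D)] at s2
  nlinarith [sq_nonneg (|cos B| - |cos D|), sq_nonneg (|sin B| - |sin D|)]

/-- global lower bound -/
theorem one_sub_K_le (n : ℕ) (a b : ℝ × ℝ) :
    1 - K n a b ≤ ((a.2 - b.2) ^ 2 + (n + 1) * (a.1 - b.1) ^ 2) / 2 := by
  obtain ⟨x, B⟩ := a
  obtain ⟨y, D⟩ := b
  simp only [K]
  set δ := x - y with hδ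
  set ε := B - D with hε
  have hn : (0:ℝ) ≤ n := Nat.cast_nonneg n
  have c0 := neg_one_le_cos δ
  have c1 := cos_le_one δ
  have u1 : 1 - cos δ ≤ δ ^ 2 / 2 := by have := one_sub_sq_div_two_le_cos (x := δ); linarith
  have v1 : 1 - cos ε ≤ ε ^ 2 / 2 := by have := one_sub_sq_div_two_le_cos (x := ε); linarith
  have E3 := one_sub_pow_abs_le n c0 c1
  have hcB : |cos B| ≤ 1 := abs_cos_le_one B
  have hcD : |cos D| ≤ 1 := abs_cos_le_one D
  have hsB : |sin B| ≤ 1 := abs_sin_le_one B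
  have hsD : |sin D| ≤ 1 := abs_sin_le_one D
  have e : 1 - (cos B * cos D * cos δ ^ n + sin B * sin D * cos δ) =
      (1 - cos ε) + cos B * cos D * (1 - cos δ ^ n) + sin B * sin D * (1 - cos δ) := by
    have : cos ε = cos B * cos D + sin B * sin D := cos_sub B D
    rw [this]; ring
  rw [e]
  have q1 : cos B * cos D * (1 - cos δ ^ n) ≤ n * (1 - cos δ) := by
    refine (le_abs_self _).trans ?_
    rw [abs_mul, abs_mul]
    have : |cos B| * |cos D| ≤ 1 := mul_le_one₀ hcB (abs_nonneg _) hcD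
    calc _ ≤ 1 * |1 - cos δ ^ n| := mul_le_mul_of_nonneg_right this (abs_nonneg _)
      _ ≤ _ := by rw [one_mul]; exact E3
  have q2 : sin B * sin D * (1 - cos δ) ≤ 1 * (1 - cos δ) := by
    apply mul_le_mul_of_nonneg_right _ (by linarith)
    refine (le_abs_self _).trans ?_
    rw [abs_mul]; exact mul_le_one₀ hsB (abs_nonneg _) hsD
  have q3 : (n:ℝ) * (1 - cos δ) ≤ n * (δ ^ 2 / 2) := mul_le_mul_of_nonneg_left u1 hn
  linarith

end Vale.Agent.P196.AM
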