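import Vale.Agent.P196.AM.Defs

/-!
# [AM3] equivariance of the product vectors under the lifts, overlap formula
-/

namespace Vale.Agent.P196.AM

open Real

/-! ### positions -/

theorem wd_intCast (M : ℕ) (k : ℤ) : (wd M (k : ZMod (2 ^ (M + 1))) : ℤ) = k % 2 ^ M := by
  unfold wd
  rw [Int.natCast_mod, ZMod.val_intCast]
  push_cast
  exact Int.emod_emod_of_dvd k (pow_dvd_pow 2 (Nat.le_succ M))

theorem cast_val (M : ℕ) (x : ZMod (2 ^ (M + 1))) : (((x.val : ℕ) : ℤ) : ZMod (2 ^ (M + 1))) = x := by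
  push_cast
  exact ZMod.natCast_zmod_val x

theorem wd_lt (M : ℕ) (x : ZMod (2 ^ (M + 1))) : wd M x < 2 ^ M := Nat.mod_lt _ (by positivity)

theorem wd_sub_one_of_ne {M : ℕ} {x : ZMod (2 ^ (M + 1))} (h : wd M x ≠ 0) :
    wd M (x - 1) + 1 = wd M x := by
  have h1 := wd_intCast M (x.val : ℤ)
  have h2 := wd_intCast M ((x.val : ℤ) - 1)
  rw [cast_val] at h1
  rw [Int.cast_sub, cast_val, Int.cast_one] at h2
  have hL : (0 : ℤ) < 2 ^ M := by positivity
  have h3 : ((x.val : ℤ) - 1) % 2 ^ M = (x.val : ℤ) % 2 ^ M - 1 := by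
    have h4 := Int.emod_nonneg (x.val : ℤ) hL.ne'
    have h5 := Int.emod_lt_of_pos (x.val : ℤ) hL
    have h6 := Int.emod_add_mul_ediv (x.val : ℤ) (2 ^ M)
    have h7 : (x.val : ℤ) % 2 ^ M ≠ 0 := by rw [← h1]; exact_mod_cast h
    have h8 : (x.val : ℤ) - 1 = ((x.val : ℤ) % 2 ^ M - 1) + 2 ^ M * ((x.val : ℤ) / 2 ^ M) := by
      linarith
    rw [h8, Int.add_mul_emod_self_left]
    exact Int.emod_eq_of_lt (by omega) (by omega)
  rw [h3, ← h1] at h2
  omega

theorem wd_sub_one_of_eq {M : ℕ} {x : ZMod (2 ^ (M + 1))} (h : wd M x = 0) :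
    wd M (x - 1) + 1 = 2 ^ M := by
  have h1 := wd_intCast M (x.val : ℤ)
  have h2 := wd_intCast M ((x.val : ℤ) - 1)
  rw [cast_val] at h1
  rw [Int.cast_sub, cast_val, Int.cast_one] at h2
  have hL : (0 : ℤ) < 2 ^ M := by positivity
  have h3 : ((x.val : ℤ) - 1) % 2 ^ M = 2 ^ M - 1 := by
    have h6 := Int.emod_add_mul_ediv (x.val : ℤ) (2 ^ M)
    have h7 : (x.val : ℤ) % 2 ^ M = 0 := by rw [← h1]; exact_mod_cast h
    have h8 : (x.val : ℤ) - 1 = (2 ^ M - 1) + 2 ^ M * ((x.val : ℤ) / 2 ^ M - 1) := by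
      linarith
    rw [h8, Int.add_mul_emod_self_left]
    exact Int.emod_eq_of_lt (by omega) (by omega)
  rw [h3] at h2
  have : ((wd M (x - 1) + 1 : ℕ) : ℤ) = ((2 ^ M : ℕ) : ℤ) := by push_cast; linarith
  exact_mod_cast this

theorem pos_sub_one_of_ne {M : ℕ} {x : ZMod (2 ^ (M + 1))} (h : wd M x ≠ 0) (z : ℝ) :
    pos M (x - 1) z = pos M x (z - 1) := by
  have := wd_sub_one_of_ne h
  unfold pos
  rw [← this]
  push_cast
  ring

/-! ### amplitudes -/

theorem amp_pi_div_two (b : Bool) : amp (π / 2) b = if b then 1 else 0 := by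
  cases b <;> simp [amp]

theorem amp_zero (b : Bool) : amp 0 b = if b then 0 else 1 := by
  cases b <;> simp [amp]

section vec

variable {Ctx : Type*} [Fintype Ctx] [DecidableEq Ctx]

theorem site_zero_right (t : ℝ) (s : St Ctx) :
    site t 0 s = (if s.2 then 0 else 1) * ∏ e, amp t (s.1 e) := by
  unfold site
  by_cases h : s.2 = true <;> simp [h]

theorem site_flip (s : St Ctx) :
    site (π / 2) 0 ((fun e => !s.1 e, s.2) : St Ctx) = site 0 0 s := by
  rw [site_zero_right, site_zero_right]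
  congr 1
  refine Finset.prod_congr rfl fun e _ => ?_
  simp only [amp_pi_div_two, amp_zero]
  cases s.1 e <;> rfl

theorem psi_step (P : Profile) {M : ℕ} (hM : 4 ≤ M) (u : Tor M) (d : Fin 2) (z : Fin 2 → ℝ)
    (hz : ∀ i, |z i| ≤ 2 ^ M / 16) (s : St Ctx) :
    psi P M (u - ev M d) z (flipIf (d = 0 ∧ wd M u.1 = 0) s)
      = psi P M u (fun i => z i - if i = d then 1 else 0) s := by
  have hL : (16 : ℝ) ≤ 2 ^ M := by
    calc (16 : ℝ) = 2 ^ 4 := by norm_num
      _ ≤ 2 ^ M := pow_le_pow_right₀ (by norm_num) hM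
  have hL0 : (0 : ℝ) < 2 ^ M := by positivity
  obtain ⟨u1, u2⟩ := u
  have hhigh : ∀ (x : ZMod (2 ^ (M + 1))) (i : Fin 2), wd M x = 0 → 7 / 8 ≤ pos M (x - 1) (z i) := by
    intro x i hx
    have h1 := wd_sub_one_of_eq hx
    have h2 : (wd M (x - 1) : ℝ) = 2 ^ M - 1 := by
      have : ((wd M (x - 1) + 1 : ℕ) : ℝ) = ((2 ^ M : ℕ) : ℝ) := by rw [h1]
      push_cast at this
      linarith
    have h3 := (abs_le.mp (hz i)).1
    unfold pos
    rw [h2, le_div_iff₀ hL0]
    linarith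
  have hlow : ∀ (x : ZMod (2 ^ (M + 1))) (i : Fin 2), wd M x = 0 → pos M x (z i - 1) ≤ 1 / 8 := by
    intro x i hx
    have h3 := (abs_le.mp (hz i)).2
    unfold pos
    rw [hx, div_le_iff₀ hL0]
    push_cast
    linarith
  fin_cases d
  · -- d = 0
    by_cases h : wd M u1 = 0
    · have e1 : (((u1, u2) : Tor M) - ev M 0) = (u1 - 1, u2) := by simp [ev]
      have e2 : (1 : Fin 2) ≠ 0 := by decide
      simp only [Fin.zero_eta, e1, flipIf, h, and_self, if_true, psi]
      have a1 := hhigh u1 0 h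
      have a2 := hlow u1 0 h
      rw [P.th_right _ (by linarith), P.B_zero _ _ (Or.inr (Or.inl a1)), P.th_left _ (by linarith),
        P.B_zero _ _ (Or.inl a2), site_flip]
    · have e1 : (((u1, u2) : Tor M) - ev M 0) = (u1 - 1, u2) := by simp [ev]
      have e2 : (1 : Fin 2) ≠ 0 := by decide
      simp only [Fin.zero_eta, e1, flipIf, h, and_false, if_false, psi, if_true, e2, sub_zero]
      rw [pos_sub_one_of_ne h]
  · have e2 : (0 : Fin 2) ≠ 1 := by decide
    have e3 : (1 : Fin 2) ≠ 0 := by decide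
    by_cases h : wd M u2 = 0
    · have e1 : (((u1, u2) : Tor M) - ev M 1) = (u1, u2 - 1) := by simp [ev]
      simp only [Fin.mk_one, e1, flipIf, false_and, if_false, psi, e2, e3, if_true, sub_zero]
      have a1 := hhigh u2 1 h
      have a2 := hlow u2 1 h
      rw [P.B_zero _ _ (Or.inr (Or.inr (Or.inr a1))), P.B_zero _ _ (Or.inr (Or.inr (Or.inl a2)))]
    · have e1 : (((u1, u2) : Tor M) - ev M 1) = (u1, u2 - 1) := by simp [ev]
      simp only [Fin.mk_one, e1, flipIf, false_and, if_false, psi, e2, e3, if_true, sub_zero]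
      rw [pos_sub_one_of_ne h]

variable {ι : Type*} [Fintype ι]

/-- **equivariance (T)** -/
theorem Psi_liftT [DecidableEq ι] (P : Profile) {M : ℕ} (hM : 4 ≤ M) (z : Fld M ι)
    (hz : ∀ u f i, |z u f i| ≤ 2 ^ M / 16) (f0 : ι) (d : Fin 2) (ω : Om M ι Ctx) :
    Psi P z ((liftT f0 d).symm ω) = Psi P (tr f0 d z) ω := by
  unfold Psi
  rw [Finset.prod_comm]
  conv_rhs => rw [Finset.prod_comm]
  refine Finset.prod_congr rfl fun f _ => ?_
  by_cases h : f = f0
  · subst h
    rw [← Equiv.prod_comp (Equiv.subRight (ev M d))]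
    refine Finset.prod_congr rfl fun u _ => ?_
    have h1 : (liftT f d).symm ω ((Equiv.subRight (ev M d)) u) f
        = flipIf (d = 0 ∧ wd M u.1 = 0) (ω u f) := by
      show (if f = f then flipIf (d = 0 ∧ wd M (u - ev M d + ev M d).1 = 0)
        (ω (u - ev M d + ev M d) f) else ω (u - ev M d) f) = _
      simp only [if_true, sub_add_cancel]
    rw [h1]
    show psi P M (u - ev M d) (z (u - ev M d) f) _ = _
    rw [psi_step P hM u d _ (hz _ _)]
    congr 1
    funext i
    simp [tr]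
  · refine Finset.prod_congr rfl fun u _ => ?_
    have h1 : (liftT f0 d).symm ω u f = ω u f := by
      show (if f = f0 then _ else ω u f) = _
      simp [h]
    rw [h1]
    congr 1
    funext i
    simp [tr, h]

/-- **equivariance (C)**, general form -/
theorem Psi_liftC (P : Profile) {M : ℕ} (z : Fld M ι) (s : Tor M → Ctx → Equiv.Perm ι)
    (s' : Tor M → Equiv.Perm ι)
    (h : ∀ u, (∀ e, s u e = s' u) ∨ (s' u = 1 ∧ (∀ f i, z u f i = 0) ∧
      P.B (pos M u.1 0) (pos M u.2 0) = 0)) (ω : Om M ι Ctx) :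
    Psi P z ((liftC s s').symm ω) = Psi P (pm s' z) ω := by
  unfold Psi
  refine Finset.prod_congr rfl fun u _ => ?_
  show ∏ f, psi P M u (z u f) ((fun e => (ω u (s u e f)).1 e, (ω u (s' u f)).2) : St Ctx)
    = ∏ f, psi P M u (fun i => z u ((s' u)⁻¹ f) i) (ω u f)
  rcases h u with h | ⟨h1, h2, h3⟩
  · simp only [h]
    rw [← Equiv.prod_comp (s' u) (fun f => psi P M u (fun i => z u ((s' u)⁻¹ f) i) (ω u f))]
    refine Finset.prod_congr rfl fun f _ => ?_
    simp
  · simp only [h1, psi, inv_one, Equiv.Perm.one_apply, h2, h3, site_zero_right]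
    rw [Finset.prod_mul_distrib, Finset.prod_mul_distrib]
    congr 1
    rw [Finset.prod_comm]
    conv_rhs => rw [Finset.prod_comm]
    refine Finset.prod_congr rfl fun e _ => ?_
    exact Equiv.prod_comp (s u e) (fun f => amp (P.th (pos M u.1 0)) ((ω u f).1 e))

end vec

end Vale.Agent.P196.AM
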