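import Vale.Agent.P196.AM.Site
import Vale.Agent.P196.AM.Avg

/-!
Overlap asymptotics of the product vectors (P196, amenability half).
-/

namespace Vale.Agent.P196.AM

open Real Filter Topology Finset

section

variable (θ' p p' q q' : ℝ → ℝ) (n : ℕ)

/-- coefficient of `d1^2` -/
noncomputable def g11 (x y : ℝ) : ℝ :=
  (p' x * q y) ^ 2 + (n * cos (p x * q y) ^ 2 + sin (p x * q y) ^ 2) * θ' x ^ 2

/-- coefficient of `2 d1 d2` -/
noncomputable def g12 (x y : ℝ) : ℝ := (p' x * q y) * (p x * q' y)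

/-- coefficient of `d2^2` -/
noncomputable def g22 (x y : ℝ) : ℝ := (p x * q' y) ^ 2

theorem G_eq (x y d1 d2 : ℝ) : G θ' p p' q q' n x y d1 d2 =
    g11 θ' p p' q n x y * d1 ^ 2 + g12 p p' q q' x y * (2 * d1 * d2) +
      g22 p q' x y * d2 ^ 2 := by
  simp only [G, g11, g12, g22]
  ring

end

section

variable {θ θ' p p' q q' : ℝ → ℝ} {C1 C2 C3 : ℝ}

theorem C11.bl_fst {f f' : ℝ → ℝ} {C : ℝ} (h : C11 f f' C) : BL (fun x _ => f x) :=
  BL.fst h.nn h.bd h.lip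

theorem C11.bl_snd {f f' : ℝ → ℝ} {C : ℝ} (h : C11 f f' C) : BL (fun _ y => f y) :=
  BL.snd h.nn h.bd h.lip

theorem C11.bl_fst' {f f' : ℝ → ℝ} {C : ℝ} (h : C11 f f' C) : BL (fun x _ => f' x) :=
  BL.fst h.nn h.bd' h.lip'

theorem C11.bl_snd' {f f' : ℝ → ℝ} {C : ℝ} (h : C11 f f' C) : BL (fun _ y => f' y) :=
  BL.snd h.nn h.bd' h.lip'

theorem bl_g11 (hθ : C11 θ θ' C1) (hp : C11 p p' C2) (hq : C11 q q' C3) (n : ℕ) :
    BL (g11 θ' p p' q n) := by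
  have h1 := hp.bl_fst'.mul hq.bl_snd
  have h2 := hp.bl_fst.mul hq.bl_snd
  have h3 := ((BL.const (n : ℝ)).mul (h2.cos.mul h2.cos)).add (h2.sin.mul h2.sin)
  have h4 := (h1.mul h1).add (h3.mul (hθ.bl_fst'.mul hθ.bl_fst'))
  have e : g11 θ' p p' q n = fun x y => p' x * q y * (p' x * q y) +
      (↑n * (cos (p x * q y) * cos (p x * q y)) + sin (p x * q y) * sin (p x * q y)) *
        (θ' x * θ' x) := by
    funext x y
    simp only [g11]; ring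
  rw [e]; exact h4

theorem bl_g12 (hp : C11 p p' C2) (hq : C11 q q' C3) :
    BL (g12 p p' q q') :=
  (hp.bl_fst'.mul hq.bl_snd).mul (hp.bl_fst.mul hq.bl_snd')

theorem bl_g22 (hp : C11 p p' C2) (hq : C11 q q' C3) :
    BL (g22 p q') := by
  have h1 := hp.bl_fst.mul hq.bl_snd'
  have e : g22 p q' = fun x y => p x * q' y * (p x * q' y) := by
    funext x y
    simp only [g22]; ring
  rw [e]; exact h1.mul h1

/-- **Overlap asymptotics**, general profiles. -/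
theorem overlap_core (hθ : C11 θ θ' C1) (hp : C11 p p' C2) (hq : C11 q q' C3) (n J : ℕ)
    {A11 A12 A22 : ℝ}
    (h11 : Tendsto (fun m => avg m (g11 θ' p p' q n)) atTop (𝓝 A11))
    (h12 : Tendsto (fun m => avg m (g12 p p' q q')) atTop (𝓝 A12))
    (h22 : Tendsto (fun m => avg m (g22 p q')) atTop (𝓝 A22))
    (z z' : ℕ → ℕ → ℝ × ℝ) :
    Tendsto (fun m => ∏ u ∈ range (2 ^ m) ×ˢ range (2 ^ m),
      K n (Phi θ p q ((u.1 + (z (u.1 % 2 ^ J) (u.2 % 2 ^ J)).1) / 2 ^ m)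
            ((u.2 + (z (u.1 % 2 ^ J) (u.2 % 2 ^ J)).2) / 2 ^ m))
          (Phi θ p q ((u.1 + (z' (u.1 % 2 ^ J) (u.2 % 2 ^ J)).1) / 2 ^ m)
            ((u.2 + (z' (u.1 % 2 ^ J) (u.2 % 2 ^ J)).2) / 2 ^ m))) atTop
      (𝓝 (exp (-(((∑ c ∈ range (2 ^ J) ×ˢ range (2 ^ J),
        (A11 * ((z c.1 c.2).1 - (z' c.1 c.2).1) ^ 2 +
          A12 * (2 * ((z c.1 c.2).1 - (z' c.1 c.2).1) * ((z c.1 c.2).2 - (z' c.1 c.2).2)) +
          A22 * ((z c.1 c.2).2 - (z' c.1 c.2).2) ^ 2)) / 4 ^ J) / 2)))) := by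
  -- bounds for the fields
  set R : ℝ := ∑ c ∈ range (2 ^ J) ×ˢ range (2 ^ J),
    (|(z c.1 c.2).1| + |(z c.1 c.2).2| + |(z' c.1 c.2).1| + |(z' c.1 c.2).2|) with hR
  have hbound : ∀ a b : ℕ, |(z (a % 2 ^ J) (b % 2 ^ J)).1| + |(z (a % 2 ^ J) (b % 2 ^ J)).2| +
      |(z' (a % 2 ^ J) (b % 2 ^ J)).1| + |(z' (a % 2 ^ J) (b % 2 ^ J)).2| ≤ R := by
    intro a b
    have hm : (a % 2 ^ J, b % 2 ^ J) ∈ range (2 ^ J) ×ˢ range (2 ^ J) := by
      rw [mem_product, mem_range, mem_range]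
      exact ⟨Nat.mod_lt _ (by positivity), Nat.mod_lt _ (by positivity)⟩
    exact single_le_sum (f := fun c : ℕ × ℕ =>
      |(z c.1 c.2).1| + |(z c.1 c.2).2| + |(z' c.1 c.2).1| + |(z' c.1 c.2).2|)
      (fun i _ => by positivity) hm
  -- the site expansion
  obtain ⟨C, hC, hexp⟩ := site_expand (ι := ℕ × ℕ × ℕ) hθ hp hq n
    (fun i => (i.2.1 : ℝ) / 2 ^ i.1) (fun i => (i.2.2 : ℝ) / 2 ^ i.1)
    (fun i => (z (i.2.1 % 2 ^ J) (i.2.2 % 2 ^ J)).1) (fun i => (z (i.2.1 % 2 ^ J) (i.2.2 % 2 ^ J)).2)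
    (fun i => (z' (i.2.1 % 2 ^ J) (i.2.2 % 2 ^ J)).1)
    (fun i => (z' (i.2.1 % 2 ^ J) (i.2.2 % 2 ^ J)).2) R
    (fun i => by
      have := hbound i.2.1 i.2.2
      have := abs_nonneg (z (i.2.1 % 2 ^ J) (i.2.2 % 2 ^ J)).2
      have := abs_nonneg (z' (i.2.1 % 2 ^ J) (i.2.2 % 2 ^ J)).1
      have := abs_nonneg (z' (i.2.1 % 2 ^ J) (i.2.2 % 2 ^ J)).2
      linarith)
    (fun i => by
      have := hbound i.2.1 i.2.2
      have := abs_nonneg (z (i.2.1 % 2 ^ J) (i.2.2 % 2 ^ J)).1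
      have := abs_nonneg (z' (i.2.1 % 2 ^ J) (i.2.2 % 2 ^ J)).1
      have := abs_nonneg (z' (i.2.1 % 2 ^ J) (i.2.2 % 2 ^ J)).2
      linarith)
    (fun i => by
      have := hbound i.2.1 i.2.2
      have := abs_nonneg (z (i.2.1 % 2 ^ J) (i.2.2 % 2 ^ J)).1
      have := abs_nonneg (z (i.2.1 % 2 ^ J) (i.2.2 % 2 ^ J)).2
      have := abs_nonneg (z' (i.2.1 % 2 ^ J) (i.2.2 % 2 ^ J)).2
      linarith)
    (fun i => by
      have := hbound i.2.1 i.2.2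
      have := abs_nonneg (z (i.2.1 % 2 ^ J) (i.2.2 % 2 ^ J)).1
      have := abs_nonneg (z (i.2.1 % 2 ^ J) (i.2.2 % 2 ^ J)).2
      have := abs_nonneg (z' (i.2.1 % 2 ^ J) (i.2.2 % 2 ^ J)).1
      linarith)
  -- notation for the deficit
  set a : ℕ → ℕ × ℕ → ℝ := fun m u => 1 -
      K n (Phi θ p q ((u.1 + (z (u.1 % 2 ^ J) (u.2 % 2 ^ J)).1) / 2 ^ m)
            ((u.2 + (z (u.1 % 2 ^ J) (u.2 % 2 ^ J)).2) / 2 ^ m))
          (Phi θ p q ((u.1 + (z' (u.1 % 2 ^ J) (u.2 % 2 ^ J)).1) / 2 ^ m)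
            ((u.2 + (z' (u.1 % 2 ^ J) (u.2 % 2 ^ J)).2) / 2 ^ m)) with ha
  set Δ1 : ℕ → ℕ → ℝ := fun c c' => (z c c').1 - (z' c c').1 with hΔ1
  set Δ2 : ℕ → ℕ → ℝ := fun c c' => (z c c').2 - (z' c c').2 with hΔ2
  set g : ℕ → ℕ × ℕ → ℝ := fun m u => G θ' p p' q q' n (u.1 / 2 ^ m) (u.2 / 2 ^ m)
    (Δ1 (u.1 % 2 ^ J) (u.2 % 2 ^ J)) (Δ2 (u.1 % 2 ^ J) (u.2 % 2 ^ J)) with hg
  have hsite : ∀ m u, |a m u - g m u / 2 / 4 ^ m| ≤ C / 8 ^ m := by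
    intro m u
    have h := hexp (1 / 2 ^ m) (by positivity)
      (by rw [div_le_one (by positivity)]; exact one_le_pow₀ (by norm_num)) (m, u.1, u.2)
    have e1 : ∀ x y : ℝ, x / 2 ^ m + 1 / 2 ^ m * y = (x + y) / 2 ^ m := fun x y => by ring
    simp only [e1] at h
    have e2 : (1 / (2:ℝ) ^ m) ^ 2 / 2 * g m u = g m u / 2 / 4 ^ m := by
      rw [one_div, inv_pow, ← pow_mul, mul_comm m 2, pow_mul]; norm_num; ring
    have e3 : C * (1 / (2:ℝ) ^ m) ^ 3 = C / 8 ^ m := by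
      rw [one_div, inv_pow, ← pow_mul, mul_comm m 3, pow_mul]; norm_num; ring
    rw [← e2, ← e3]
    exact h
  -- convergence of the sum of deficits
  have s11 := (bl_g11 hθ hp hq n).tendsto_sum h11 (fun c c' => Δ1 c c' ^ 2) J
  have s12 := (bl_g12 hp hq).tendsto_sum h12 (fun c c' => 2 * Δ1 c c' * Δ2 c c') J
  have s22 := (bl_g22 hp hq).tendsto_sum h22 (fun c c' => Δ2 c c' ^ 2) J
  have hgsum := ((s11.add s12).add s22).div_const 2
  set A : ℝ := ((∑ c ∈ range (2 ^ J) ×ˢ range (2 ^ J),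
        (A11 * ((z c.1 c.2).1 - (z' c.1 c.2).1) ^ 2 +
          A12 * (2 * ((z c.1 c.2).1 - (z' c.1 c.2).1) * ((z c.1 c.2).2 - (z' c.1 c.2).2)) +
          A22 * ((z c.1 c.2).2 - (z' c.1 c.2).2) ^ 2)) / 4 ^ J) / 2 with hA
  have hAeq : (A11 * ((∑ c ∈ range (2 ^ J) ×ˢ range (2 ^ J), Δ1 c.1 c.2 ^ 2) / 4 ^ J) +
      A12 * ((∑ c ∈ range (2 ^ J) ×ˢ range (2 ^ J), 2 * Δ1 c.1 c.2 * Δ2 c.1 c.2) / 4 ^ J) +
      A22 * ((∑ c ∈ range (2 ^ J) ×ˢ range (2 ^ J), Δ2 c.1 c.2 ^ 2) / 4 ^ J)) / 2 = A := by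
    rw [hA, sum_add_distrib, sum_add_distrib, ← mul_sum, ← mul_sum, ← mul_sum]
    ring
  rw [hAeq] at hgsum
  have hgs : Tendsto (fun m => (∑ u ∈ range (2 ^ m) ×ˢ range (2 ^ m), g m u / 2 / 4 ^ m)) atTop
      (𝓝 A) := by
    refine hgsum.congr fun m => ?_
    rw [← add_div, ← add_div, ← sum_add_distrib, ← sum_add_distrib, div_div, sum_div]
    refine sum_congr rfl fun u _ => ?_
    simp only [hg, G_eq]
    rw [div_div]
    ring
  have hcard : ∀ m : ℕ, (((range (2 ^ m) ×ˢ range (2 ^ m)).card : ℕ) : ℝ) = 4 ^ m := by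
    intro m
    rw [card_product, card_range]
    push_cast
    rw [← mul_pow]; norm_num
  have has : Tendsto (fun m => (∑ u ∈ range (2 ^ m) ×ˢ range (2 ^ m), a m u)) atTop (𝓝 A) := by
    refine tendsto_of_tendsto_of_dist hgs ?_
    have hz : Tendsto (fun k : ℕ => C / (2:ℝ) ^ k) atTop (𝓝 0) := by
      have := (tendsto_pow_atTop_nhds_zero_of_lt_one (r := (1/2 : ℝ)) (by norm_num)
        (by norm_num)).const_mul C
      rw [mul_zero] at this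
      refine this.congr fun k => ?_
      rw [one_div, inv_pow]; ring
    refine squeeze_zero (fun _ => dist_nonneg) (fun m => ?_) hz
    rw [dist_comm, Real.dist_eq, ← sum_sub_distrib]
    refine (abs_sum_le_sum_abs _ _).trans ?_
    refine (sum_le_sum fun u _ => hsite m u).trans ?_
    rw [sum_const, nsmul_eq_mul, hcard]
    have h8 : (8:ℝ) ^ m = 4 ^ m * 2 ^ m := by rw [← mul_pow]; norm_num
    rw [h8]
    refine le_of_eq ?_
    field_simp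
  -- bound of each deficit
  obtain ⟨B11, hB11, b11, -⟩ := bl_g11 hθ hp hq n
  obtain ⟨B12, hB12, b12, -⟩ := bl_g12 hp hq
  obtain ⟨B22, hB22, b22, -⟩ := bl_g22 hp hq
  have hRnn : 0 ≤ R := sum_nonneg fun c _ => by positivity
  have hgb : ∀ m u, |g m u| ≤ (B11 + 2 * B12 + B22) * (R ^ 2) := by
    intro m u
    have h0 := hbound u.1 u.2
    have h1 : |Δ1 (u.1 % 2 ^ J) (u.2 % 2 ^ J)| ≤ R := by
      have := abs_sub (z (u.1 % 2 ^ J) (u.2 % 2 ^ J)).1 (z' (u.1 % 2 ^ J) (u.2 % 2 ^ J)).1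
      have := abs_nonneg (z (u.1 % 2 ^ J) (u.2 % 2 ^ J)).2
      have := abs_nonneg (z' (u.1 % 2 ^ J) (u.2 % 2 ^ J)).2
      simp only [hΔ1]
      linarith
    have h2 : |Δ2 (u.1 % 2 ^ J) (u.2 % 2 ^ J)| ≤ R := by
      have := abs_sub (z (u.1 % 2 ^ J) (u.2 % 2 ^ J)).2 (z' (u.1 % 2 ^ J) (u.2 % 2 ^ J)).2
      have := abs_nonneg (z (u.1 % 2 ^ J) (u.2 % 2 ^ J)).1
      have := abs_nonneg (z' (u.1 % 2 ^ J) (u.2 % 2 ^ J)).1
      simp only [hΔ2]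
      linarith
    simp only [hg, G_eq]
    set D1 := Δ1 (u.1 % 2 ^ J) (u.2 % 2 ^ J)
    set D2 := Δ2 (u.1 % 2 ^ J) (u.2 % 2 ^ J)
    have t1 : |g11 θ' p p' q n (u.1 / 2 ^ m) (u.2 / 2 ^ m) * D1 ^ 2| ≤ B11 * R ^ 2 := by
      rw [abs_mul, abs_pow]
      exact mul_le_mul (b11 _ _) (pow_le_pow_left₀ (abs_nonneg _) h1 2) (by positivity) hB11
    have t2 : |g12 p p' q q' (u.1 / 2 ^ m) (u.2 / 2 ^ m) * (2 * D1 * D2)| ≤
        B12 * (2 * R * R) := by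
      rw [abs_mul, abs_mul, abs_mul, abs_two]
      refine mul_le_mul (b12 _ _) ?_ (by positivity) hB12
      exact mul_le_mul (mul_le_mul_of_nonneg_left h1 (by norm_num)) h2 (abs_nonneg _)
        (by positivity)
    have t3 : |g22 p q' (u.1 / 2 ^ m) (u.2 / 2 ^ m) * D2 ^ 2| ≤ B22 * R ^ 2 := by
      rw [abs_mul, abs_pow]
      exact mul_le_mul (b22 _ _) (pow_le_pow_left₀ (abs_nonneg _) h2 2) (by positivity) hB22
    have t4 := abs_add_le (g11 θ' p p' q n (u.1 / 2 ^ m) (u.2 / 2 ^ m) * D1 ^ 2 +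
      g12 p p' q q' (u.1 / 2 ^ m) (u.2 / 2 ^ m) * (2 * D1 * D2))
      (g22 p q' (u.1 / 2 ^ m) (u.2 / 2 ^ m) * D2 ^ 2)
    have t5 := abs_add_le (g11 θ' p p' q n (u.1 / 2 ^ m) (u.2 / 2 ^ m) * D1 ^ 2)
      (g12 p p' q q' (u.1 / 2 ^ m) (u.2 / 2 ^ m) * (2 * D1 * D2))
    nlinarith
  have hab : ∀ m, ∀ u ∈ range (2 ^ m) ×ˢ range (2 ^ m),
      |a m u| ≤ ((B11 + 2 * B12 + B22) * (R ^ 2) + C) / 4 ^ m := by
    intro m u _
    have h1 := hsite m u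
    have h2 := hgb m u
    have h3 : |a m u| ≤ |a m u - g m u / 2 / 4 ^ m| + |g m u / 2 / 4 ^ m| := by
      have := abs_add_le (a m u - g m u / 2 / 4 ^ m) (g m u / 2 / 4 ^ m)
      simpa using this
    have h4 : |g m u / 2 / 4 ^ m| ≤ ((B11 + 2 * B12 + B22) * (R ^ 2)) / 4 ^ m := by
      rw [abs_div, abs_div, abs_two, abs_of_pos (by positivity : (0:ℝ) < 4 ^ m)]
      apply div_le_div_of_nonneg_right _ (by positivity)
      linarith [abs_nonneg (g m u)]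
    have h5 : C / 8 ^ m ≤ C / 4 ^ m := by
      apply div_le_div_of_nonneg_left hC (by positivity)
      exact pow_le_pow_left₀ (by norm_num) (by norm_num) m
    rw [add_div]
    linarith
  have := tendsto_prod_of_sum (fun m => range (2 ^ m) ×ˢ range (2 ^ m)) a A _
    (fun m => (hcard m).le) hab has
  refine this.congr fun m => ?_
  refine prod_congr rfl fun u _ => ?_
  simp only [ha]
  ring

end

end Vale.Agent.P196.AM
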