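import Mathlib.Analysis.SpecialFunctions.SmoothTransition
import Mathlib.Analysis.Calculus.MeanValue
import Mathlib.Analysis.Calculus.ContDiff.Basic
import Mathlib.Analysis.Calculus.IteratedDeriv.Lemmas
import Mathlib.Tactic

/-!
Profile functions for the overlap asymptotics (P196, amenability half).
-/

namespace Vale.Agent.P196.AM

open Real Filter Topology

/-- A real function with a bounded, Lipschitz derivative, and bounded. -/
structure C11 (p p' : ℝ → ℝ) (C : ℝ) : Prop where
  nn : 0 ≤ C
  bd : ∀ t, |p t| ≤ C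
  bd' : ∀ t, |p' t| ≤ C
  lip' : ∀ s t, |p' s - p' t| ≤ C * |s - t|
  der : ∀ t, HasDerivAt p (p' t) t

theorem C11.taylor {p p' : ℝ → ℝ} {C : ℝ} (h : C11 p p' C) (t d : ℝ) :
    |p (t + d) - p t - p' t * d| ≤ C * d ^ 2 := by
  -- apply the mean value inequality to `q s = p s - p' t * s` on the segment
  have hder : ∀ x ∈ segment ℝ t (t + d), HasDerivWithinAt (fun s => p s - p' t * s)
      (p' x - p' t) (segment ℝ t (t + d)) x := by
    intro x _
    have h1 := (h.der x).hasDerivWithinAt (s := segment ℝ t (t + d))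
    have h2 : HasDerivWithinAt (fun s => p' t * s) (p' t) (segment ℝ t (t + d)) x := by
      simpa using (hasDerivWithinAt_id x (segment ℝ t (t + d))).const_mul (p' t)
    exact h1.sub h2
  have hb : ∀ x ∈ segment ℝ t (t + d), ‖p' x - p' t‖ ≤ C * |d| := by
    intro x hx
    have h3 : |x - t| ≤ |d| := by
      rcases hx with ⟨a, b, ha, hb, hab, rfl⟩
      have : a • t + b • (t + d) - t = b * d := by
        simp only [smul_eq_mul]; linear_combination t * hab
      rw [this, abs_mul, abs_of_nonneg hb]
      have : b ≤ 1 := by linarith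
      exact mul_le_of_le_one_left (abs_nonneg d) this
    calc ‖p' x - p' t‖ = |p' x - p' t| := rfl
      _ ≤ C * |x - t| := h.lip' x t
      _ ≤ C * |d| := mul_le_mul_of_nonneg_left h3 h.nn
  have := (convex_segment t (t + d)).norm_image_sub_le_of_norm_hasDerivWithin_le
    hder hb (left_mem_segment ℝ t (t + d)) (right_mem_segment ℝ t (t + d))
  have h4 : p (t + d) - p' t * (t + d) - (p t - p' t * t) = p (t + d) - p t - p' t * d := by ring
  simp only [Real.norm_eq_abs] at this
  rw [h4] at this
  calc _ ≤ C * |d| * |t + d - t| := this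
    _ = C * d ^ 2 := by rw [add_sub_cancel_left, mul_assoc, ← abs_mul, ← sq, abs_of_nonneg (sq_nonneg d)]

theorem C11.lip {p p' : ℝ → ℝ} {C : ℝ} (h : C11 p p' C) (s t : ℝ) :
    |p s - p t| ≤ C * |s - t| := by
  have := convex_univ.norm_image_sub_le_of_norm_hasDerivWithin_le (f := p) (f' := p')
    (C := C) (s := Set.univ) (x := t) (y := s)
    (fun x _ => (h.der x).hasDerivWithinAt) (fun x _ => by simpa using h.bd' x)
    (Set.mem_univ t) (Set.mem_univ s)
  simpa using this

/-- composition with an affine map -/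
theorem C11.comp_affine {p p' : ℝ → ℝ} {C : ℝ} (h : C11 p p' C) (a b : ℝ) :
    C11 (fun t => p (a * t + b)) (fun t => a * p' (a * t + b)) (C * (1 + |a| + a ^ 2)) where
  nn := mul_nonneg h.nn (by positivity)
  bd t := (h.bd _).trans (le_mul_of_one_le_right h.nn (by nlinarith [abs_nonneg a, sq_nonneg a]))
  bd' t := by
    rw [abs_mul]
    calc |a| * |p' (a * t + b)| ≤ |a| * C := mul_le_mul_of_nonneg_left (h.bd' _) (abs_nonneg a)
      _ ≤ C * (1 + |a| + a ^ 2) := by nlinarith [h.nn, sq_nonneg a, mul_nonneg h.nn (sq_nonneg a)]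
  lip' s t := by
    rw [← mul_sub, abs_mul]
    have h1 := h.lip' (a * s + b) (a * t + b)
    have h2 : a * s + b - (a * t + b) = a * (s - t) := by ring
    rw [h2, abs_mul] at h1
    calc |a| * |p' (a * s + b) - p' (a * t + b)| ≤ |a| * (C * (|a| * |s - t|)) :=
          mul_le_mul_of_nonneg_left h1 (abs_nonneg a)
      _ = C * (|a| * |a|) * |s - t| := by ring
      _ = C * a ^ 2 * |s - t| := by rw [abs_mul_abs_self, sq]
      _ ≤ C * (1 + |a| + a ^ 2) * |s - t| := by
          apply mul_le_mul_of_nonneg_right _ (abs_nonneg _)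
          apply mul_le_mul_of_nonneg_left _ h.nn
          nlinarith [abs_nonneg a]
  der t := by
    have h1 := h.der (a * t + b)
    have h2 : HasDerivAt (fun t : ℝ => a * t + b) a t := by
      simpa using ((hasDerivAt_id t).const_mul a).add_const b
    have := h1.comp t h2
    simpa [mul_comm, Function.comp_def] using this

theorem C11.const_mul {p p' : ℝ → ℝ} {C : ℝ} (h : C11 p p' C) (a : ℝ) :
    C11 (fun t => a * p t) (fun t => a * p' t) (|a| * C) where
  nn := mul_nonneg (abs_nonneg a) h.nn
  bd t := by rw [abs_mul]; exact mul_le_mul_of_nonneg_left (h.bd t) (abs_nonneg a)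
  bd' t := by rw [abs_mul]; exact mul_le_mul_of_nonneg_left (h.bd' t) (abs_nonneg a)
  lip' s t := by
    rw [← mul_sub, abs_mul, mul_assoc]
    exact mul_le_mul_of_nonneg_left (h.lip' s t) (abs_nonneg a)
  der t := (h.der t).const_mul a

theorem C11.mul {p p' q q' : ℝ → ℝ} {C D : ℝ} (hp : C11 p p' C) (hq : C11 q q' D) :
    C11 (fun t => p t * q t) (fun t => p' t * q t + p t * q' t) (4 * C * D) where
  nn := by have := hp.nn; have := hq.nn; positivity
  bd t := by
    rw [abs_mul]
    have := mul_le_mul (hp.bd t) (hq.bd t) (abs_nonneg _) hp.nn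
    nlinarith [mul_nonneg hp.nn hq.nn]
  bd' t := by
    have h1 := mul_le_mul (hp.bd' t) (hq.bd t) (abs_nonneg _) hp.nn
    have h2 := mul_le_mul (hp.bd t) (hq.bd' t) (abs_nonneg _) hp.nn
    rw [← abs_mul] at h1 h2
    have := abs_add_le (p' t * q t) (p t * q' t)
    nlinarith [mul_nonneg hp.nn hq.nn]
  lip' s t := by
    have e : p' s * q s + p s * q' s - (p' t * q t + p t * q' t) =
        (p' s - p' t) * q s + p' t * (q s - q t) + (p s - p t) * q' s + p t * (q' s - q' t) := by
      ring
    rw [e]
    have b1 : |(p' s - p' t) * q s| ≤ C * D * |s - t| := by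
      rw [abs_mul]
      calc _ ≤ (C * |s - t|) * D := mul_le_mul (hp.lip' s t) (hq.bd s) (abs_nonneg _)
            (mul_nonneg hp.nn (abs_nonneg _))
        _ = _ := by ring
    have b2 : |p' t * (q s - q t)| ≤ C * D * |s - t| := by
      rw [abs_mul]
      calc _ ≤ C * (D * |s - t|) := mul_le_mul (hp.bd' t) (hq.lip s t) (abs_nonneg _) hp.nn
        _ = _ := by ring
    have b3 : |(p s - p t) * q' s| ≤ C * D * |s - t| := by
      rw [abs_mul]
      calc _ ≤ (C * |s - t|) * D := mul_le_mul (hp.lip s t) (hq.bd' s) (abs_nonneg _)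
            (mul_nonneg hp.nn (abs_nonneg _))
        _ = _ := by ring
    have b4 : |p t * (q' s - q' t)| ≤ C * D * |s - t| := by
      rw [abs_mul]
      calc _ ≤ C * (D * |s - t|) := mul_le_mul (hp.bd t) (hq.lip' s t) (abs_nonneg _) hp.nn
        _ = _ := by ring
    have t1 := abs_add_le ((p' s - p' t) * q s + p' t * (q s - q t) + (p s - p t) * q' s)
      (p t * (q' s - q' t))
    have t2 := abs_add_le ((p' s - p' t) * q s + p' t * (q s - q t)) ((p s - p t) * q' s)
    have t3 := abs_add_le ((p' s - p' t) * q s) (p' t * (q s - q t))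
    linarith
  der t := (hp.der t).mul (hq.der t)

/-- the smooth step has bounded Lipschitz derivative -/
theorem c11_smoothTransition : ∃ (s' : ℝ → ℝ) (C : ℝ), C11 smoothTransition s' C := by
  have hs : ContDiff ℝ 2 smoothTransition := smoothTransition.contDiff
  have hd1 : ContDiff ℝ 1 (deriv smoothTransition) := by
    have := (contDiff_succ_iff_deriv (𝕜 := ℝ) (n := 1) (f := smoothTransition)).1
      (by simpa using (show ContDiff ℝ (1 + 1) smoothTransition by exact_mod_cast hs))
    exact this.2.2
  have hd2 : Continuous (deriv (deriv smoothTransition)) := hd1.continuous_deriv le_rfl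
  have hd1c : Continuous (deriv smoothTransition) := hd1.continuous
  have hdiff1 : Differentiable ℝ (deriv smoothTransition) := hd1.differentiable (by simp)
  have hdiff0 : Differentiable ℝ smoothTransition := hs.differentiable (by simp)
  -- outside `[0,1]` the derivatives vanish
  have z1 : ∀ t, t ∉ Set.Icc (0:ℝ) 1 → deriv smoothTransition t = 0 := by
    intro t ht
    have : smoothTransition =ᶠ[𝓝 t] fun _ => smoothTransition t := by
      rcases lt_or_ge t 0 with h | h
      · filter_upwards [Iio_mem_nhds h] with x hx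
        rw [smoothTransition.zero_of_nonpos (le_of_lt hx),
          smoothTransition.zero_of_nonpos h.le]
      · have h1 : 1 < t := by
          by_contra h1
          exact ht ⟨h, not_lt.1 h1⟩
        filter_upwards [Ioi_mem_nhds h1] with x hx
        rw [smoothTransition.one_of_one_le (le_of_lt hx),
          smoothTransition.one_of_one_le h1.le]
    rw [this.deriv_eq, deriv_const]
  have z2 : ∀ t, t ∉ Set.Icc (0:ℝ) 1 → deriv (deriv smoothTransition) t = 0 := by
    intro t ht
    have : deriv smoothTransition =ᶠ[𝓝 t] fun _ => (0:ℝ) := by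
      filter_upwards [(isClosed_Icc (a := (0:ℝ)) (b := 1)).isOpen_compl.mem_nhds ht] with x hx
      exact z1 x hx
    rw [this.deriv_eq, deriv_const]
  obtain ⟨C1, hC1⟩ := (isCompact_Icc (a := (0:ℝ)) (b := 1)).exists_bound_of_continuousOn
    hd1c.continuousOn
  obtain ⟨C2, hC2⟩ := (isCompact_Icc (a := (0:ℝ)) (b := 1)).exists_bound_of_continuousOn
    hd2.continuousOn
  have B1 : ∀ t, |deriv smoothTransition t| ≤ |C1| := by
    intro t
    by_cases ht : t ∈ Set.Icc (0:ℝ) 1
    · exact (hC1 t ht).trans (le_abs_self _)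
    · rw [z1 t ht]; simp
  have B2 : ∀ t, |deriv (deriv smoothTransition) t| ≤ |C2| := by
    intro t
    by_cases ht : t ∈ Set.Icc (0:ℝ) 1
    · exact (hC2 t ht).trans (le_abs_self _)
    · rw [z2 t ht]; simp
  refine ⟨deriv smoothTransition, 1 + |C1| + |C2|, ⟨by positivity, ?_, ?_, ?_, ?_⟩⟩
  · intro t
    rw [abs_of_nonneg (smoothTransition.nonneg t)]
    have := smoothTransition.le_one t
    have := abs_nonneg C1
    have := abs_nonneg C2
    linarith
  · intro t
    have := B1 t
    have := abs_nonneg C2
    linarith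
  · intro s t
    have := convex_univ.norm_image_sub_le_of_norm_hasDerivWithin_le
      (f := deriv smoothTransition) (f' := deriv (deriv smoothTransition))
      (C := |C2|) (s := Set.univ) (x := t) (y := s)
      (fun x _ => (hdiff1 x).hasDerivAt.hasDerivWithinAt) (fun x _ => by simpa using B2 x)
      (Set.mem_univ t) (Set.mem_univ s)
    simp only [Real.norm_eq_abs] at this
    refine this.trans (mul_le_mul_of_nonneg_right ?_ (abs_nonneg _))
    have := abs_nonneg C1
    linarith
  · intro t
    exact (hdiff0 t).hasDerivAt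

end Vale.Agent.P196.AM
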