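import Vale.Agent.P196.AM.Lift
import Vale.Agent.P196.S0.Simple

/-!
# [AM3] the good configurations and the realisation
-/

namespace Vale.Agent.P196.AM

open Real Vale.Agent.P196.Wang Vale.Agent.P196.S0

/-! ### good configurations -/

/-- the constraints satisfied on the support of the product vectors -/
structure Good {M : ℕ} {ι Ctx : Type*} (ω : Om M ι Ctx) : Prop where
  left : ∀ u f, 16 * wd M u.1 ≤ 2 ^ M → ω u f = (fun _ => false, false)
  right : ∀ u f, 15 * 2 ^ M ≤ 16 * wd M u.1 → ω u f = (fun _ => true, false)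
  tag : ∀ u f, (16 * wd M u.2 ≤ 2 ^ M ∨ 15 * 2 ^ M ≤ 16 * wd M u.2) → (ω u f).2 = false
  mid : ∀ u f, 7 * 2 ^ M ≤ 16 * wd M u.2 → 16 * wd M u.2 ≤ 9 * 2 ^ M →
    ∃ b, (ω u f).1 = fun _ => b

section site

variable {Ctx : Type*} [Fintype Ctx] [DecidableEq Ctx]

theorem site_left {s : St Ctx} (h : site 0 0 s ≠ 0) : s = (fun _ => false, false) := by
  rw [site_zero_right] at h
  obtain ⟨f, b⟩ := s
  have h1 := left_ne_zero_of_mul h
  have h2 := Finset.prod_ne_zero_iff.1 (right_ne_zero_of_mul h)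
  ext1
  · funext e
    have := h2 e (Finset.mem_univ e)
    simp only [amp_zero] at this
    show f e = false
    by_contra h3
    simp only [Bool.not_eq_false] at h3
    simp [h3] at this
  · show b = false
    by_contra h3
    simp only [Bool.not_eq_false] at h3
    simp [h3] at h1

theorem site_right {s : St Ctx} (h : site (π / 2) 0 s ≠ 0) : s = (fun _ => true, false) := by
  rw [site_zero_right] at h
  obtain ⟨f, b⟩ := s
  have h1 := left_ne_zero_of_mul h
  have h2 := Finset.prod_ne_zero_iff.1 (right_ne_zero_of_mul h)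
  ext1
  · funext e
    have := h2 e (Finset.mem_univ e)
    simp only [amp_pi_div_two] at this
    show f e = true
    by_contra h3
    simp only [Bool.not_eq_true] at h3
    simp [h3] at this
  · show b = false
    by_contra h3
    simp only [Bool.not_eq_false] at h3
    simp [h3] at h1

theorem site_tag {t : ℝ} {s : St Ctx} (h : site t 0 s ≠ 0) : s.2 = false := by
  rw [site_zero_right] at h
  have h1 := left_ne_zero_of_mul h
  by_contra h3
  simp only [Bool.not_eq_false] at h3
  simp [h3] at h1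

theorem site_const {t β : ℝ} {s : St Ctx} (hc : t = 0 ∨ t = π / 2 ∨ β = π / 2)
    (h : site t β s ≠ 0) : ∃ b, s.1 = fun _ => b := by
  unfold site at h
  by_cases h2 : s.2 = true
  · rw [if_pos h2] at h
    have h3 := right_ne_zero_of_mul h
    unfold coh at h3
    obtain ⟨b, _, hb⟩ := Finset.exists_ne_zero_of_sum_ne_zero h3
    refine ⟨b, ?_⟩
    by_contra h4
    exact hb (if_neg h4)
  · rw [if_neg h2] at h
    have h3 := left_ne_zero_of_mul h
    have h4 := Finset.prod_ne_zero_iff.1 (right_ne_zero_of_mul h)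
    rcases hc with rfl | rfl | rfl
    · refine ⟨false, ?_⟩
      funext e
      have := h4 e (Finset.mem_univ e)
      rw [amp_zero] at this
      by_contra h3
      simp only [Bool.not_eq_false] at h3
      simp [h3] at this
    · refine ⟨true, ?_⟩
      funext e
      have := h4 e (Finset.mem_univ e)
      rw [amp_pi_div_two] at this
      by_contra h3
      simp only [Bool.not_eq_true] at h3
      simp [h3] at this
    · simp at h3

theorem good_of_ne {ι : Type*} [Fintype ι] (P : Profile) {M : ℕ} (z : Fld M ι)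
    (hz : ∀ u f i, |z u f i| ≤ 2 ^ M / 16) (ω : Om M ι Ctx) (h : Psi P z ω ≠ 0) : Good ω := by
  have hL0 : (0 : ℝ) < 2 ^ M := by positivity
  have hs : ∀ u f, psi P M u (z u f) (ω u f) ≠ 0 := fun u f =>
    Finset.prod_ne_zero_iff.1 (Finset.prod_ne_zero_iff.1 h u (Finset.mem_univ u)) f
      (Finset.mem_univ f)
  have hlow : ∀ (x : ZMod (2 ^ (M + 1))) u f i, 16 * wd M x ≤ 2 ^ M →
      pos M x (z u f i) ≤ 1 / 8 := by
    intro x u f i hx
    have h3 := (abs_le.mp (hz u f i)).2
    have h4 : (16 : ℝ) * wd M x ≤ 2 ^ M := by exact_mod_cast hx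
    unfold pos
    rw [div_le_iff₀ hL0]
    linarith
  have hhigh : ∀ (x : ZMod (2 ^ (M + 1))) u f i, 15 * 2 ^ M ≤ 16 * wd M x →
      7 / 8 ≤ pos M x (z u f i) := by
    intro x u f i hx
    have h3 := (abs_le.mp (hz u f i)).1
    have h4 : (15 : ℝ) * 2 ^ M ≤ 16 * wd M x := by exact_mod_cast hx
    unfold pos
    rw [le_div_iff₀ hL0]
    linarith
  refine ⟨?_, ?_, ?_, ?_⟩
  · intro u f hu
    have h1 := hlow u.1 u f 0 hu
    have h2 := hs u f
    unfold psi at h2
    rw [P.th_left _ (by linarith), P.B_zero _ _ (Or.inl h1)] at h2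
    exact site_left h2
  · intro u f hu
    have h1 := hhigh u.1 u f 0 hu
    have h2 := hs u f
    unfold psi at h2
    rw [P.th_right _ (by linarith), P.B_zero _ _ (Or.inr (Or.inl h1))] at h2
    exact site_right h2
  · intro u f hu
    have h2 := hs u f
    unfold psi at h2
    rcases hu with hu | hu
    · have h1 := hlow u.2 u f 1 hu
      rw [P.B_zero _ _ (Or.inr (Or.inr (Or.inl h1)))] at h2
      exact site_tag h2
    · have h1 := hhigh u.2 u f 1 hu
      rw [P.B_zero _ _ (Or.inr (Or.inr (Or.inr h1)))] at h2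
      exact site_tag h2
  · intro u f hu1 hu2
    have h2 := hs u f
    unfold psi at h2
    have h3 := (abs_le.mp (hz u f 1))
    have h4 : (7 : ℝ) * 2 ^ M ≤ 16 * wd M u.2 := by exact_mod_cast hu1
    have h5 : (16 : ℝ) * wd M u.2 ≤ 9 * 2 ^ M := by exact_mod_cast hu2
    have h6 : 3 / 8 ≤ pos M u.2 (z u f 1) := by
      unfold pos; rw [le_div_iff₀ hL0]; linarith
    have h7 : pos M u.2 (z u f 1) ≤ 5 / 8 := by
      unfold pos; rw [div_le_iff₀ hL0]; linarith
    refine site_const ?_ h2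
    rcases le_total (pos M u.1 (z u f 0)) (1 / 4) with h8 | h8
    · exact Or.inl (P.th_left _ h8)
    · rcases le_total (3 / 4) (pos M u.1 (z u f 0)) with h9 | h9
      · exact Or.inr (Or.inl (P.th_right _ h9))
      · exact Or.inr (Or.inr (P.B_one _ _ h8 h9 h6 h7))

end site

/-! ### the realisation -/

section real

variable {M : ℕ} {ι Ctx : Type*}

/-- bounded displacement of the realisation -/
theorem rz_bdd (cx : ℤ × ℤ → Ctx) (ω : Om M ι Ctx) (p : (ℤ × ℤ) × ι) :
    |(rz M cx ω p).1 - p.1.1| ≤ 2 ^ M := by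
  have hL : (0 : ℤ) < 2 ^ M := by positivity
  have h1 := Int.emod_add_mul_ediv p.1.1 (2 ^ M)
  have h2 := Int.emod_nonneg p.1.1 hL.ne'
  have h3 := Int.emod_lt_of_pos p.1.1 hL
  have h4 : (rz M cx ω p).1 - p.1.1 = - (p.1.1 % 2 ^ M)
      + 2 ^ M * (if (ω (cl M p.1) p.2).1 (cx p.1) then 1 else 0) := by
    show 2 ^ M * (p.1.1 / 2 ^ M + _) - p.1.1 = _
    rw [mul_add]
    linarith
  rw [h4, abs_le]
  split_ifs <;> constructor <;> linarith

/-- the unit vectors of the lattice -/
def ez (d : Fin 2) : ℤ × ℤ := if d = 0 then (1, 0) else (0, 1)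

theorem cl_add_ez (v : ℤ × ℤ) (d : Fin 2) : cl M (v + ez d) = cl M v + ev M d := by
  fin_cases d <;> simp [cl, ez, ev]

theorem ediv_succ_of_ne {L x : ℤ} (hL : 0 < L) (h : (x + 1) % L ≠ 0) : (x + 1) / L = x / L := by
  have h4 := Int.emod_add_mul_ediv (x + 1) L
  have h5 := Int.emod_nonneg (x + 1) hL.ne'
  have h6 := Int.emod_lt_of_pos (x + 1) hL
  have h7 : 0 < (x + 1) % L := lt_of_le_of_ne h5 (Ne.symm h)
  symm
  apply div_eq_of_bounds hL
  · linarith
  · linarith

theorem ediv_succ_of_eq {L x : ℤ} (hL : 0 < L) (h : (x + 1) % L = 0) :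
    (x + 1) / L = x / L + 1 ∧ x % L = L - 1 := by
  have h4 := Int.emod_add_mul_ediv (x + 1) L
  rw [h, zero_add] at h4
  have h8 : x / L = (x + 1) / L - 1 := by
    apply div_eq_of_bounds hL
    · linarith
    · linarith
  refine ⟨by linarith, ?_⟩
  have h9 := Int.emod_add_mul_ediv x L
  rw [h8] at h9
  linarith

theorem nl_succ {y : ℤ} (hM : 4 ≤ M) (h : nl M (y + 1) ≠ nl M y) :
    7 * 2 ^ M ≤ 16 * (y % 2 ^ M) ∧ 16 * (y % 2 ^ M) ≤ 9 * 2 ^ M := by
  have hL : (0 : ℤ) < 2 ^ M := by positivity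
  have hL16 : (16 : ℤ) ≤ 2 ^ M := by
    calc (16 : ℤ) = 2 ^ 4 := by norm_num
      _ ≤ 2 ^ M := pow_le_pow_right₀ (by norm_num) hM
  have h2 : (2 : ℤ) ^ (M + 1) = 2 * 2 ^ M := by ring
  have h4 := Int.emod_add_mul_ediv y (2 ^ M)
  have h5 := Int.emod_nonneg y hL.ne'
  have h6 := Int.emod_lt_of_pos y hL
  set r := y % 2 ^ M with hr
  set q := y / 2 ^ M with hq
  by_contra hcon
  apply h
  unfold nl
  rw [h2]
  rcases lt_or_ge (2 * r + 2) (2 ^ M) with h7 | h7
  · rw [div_eq_of_bounds (q := q) (by positivity) (by linarith) (by linarith),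
      div_eq_of_bounds (q := q) (by positivity) (by linarith) (by linarith)]
  · rcases lt_or_ge (2 * r) (2 ^ M) with h8 | h8
    · exact absurd ⟨by linarith, by linarith⟩ hcon
    · rw [div_eq_of_bounds (q := q + 1) (by positivity) (by linarith) (by linarith),
        div_eq_of_bounds (q := q + 1) (by positivity) (by linarith) (by linarith)]

theorem wd_cl_fst (v : ℤ × ℤ) : (wd M (cl M v).1 : ℤ) = v.1 % 2 ^ M := wd_intCast M v.1
theorem wd_cl_snd (v : ℤ × ℤ) : (wd M (cl M v).2 : ℤ) = v.2 % 2 ^ M := wd_intCast M v.2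

/-- **realisation of (T)** -/
theorem rz_liftT [DecidableEq ι] (hM : 4 ≤ M) (cx : ℤ × ℤ → Ctx)
    (hcx : ∀ u v : ℤ × ℤ, u.1 / 2 ^ M = v.1 / 2 ^ M → nl M u.2 = nl M v.2 → cx u = cx v)
    {ω : Om M ι Ctx} (hω : Good ω) (f0 : ι) (d : Fin 2) :
    rz M cx (liftT f0 d ω) ∘ dP (Pi.single f0 (ez d)) = rz M cx ω := by
  have hL : (0 : ℤ) < 2 ^ M := by positivity
  have hL16 : (16 : ℤ) ≤ 2 ^ M := by
    calc (16 : ℤ) = 2 ^ 4 := by norm_num
      _ ≤ 2 ^ M := pow_le_pow_right₀ (by norm_num) hM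
  funext ⟨v, f⟩
  show rz M cx (liftT f0 d ω) (dP (Pi.single f0 (ez d)) (v, f)) = _
  rw [dP_apply]
  by_cases hf : f = f0
  · subst hf
    rw [Pi.single_eq_same]
    have e1 : liftT f d ω (cl M (v + ez d)) f
        = flipIf (d = 0 ∧ wd M (cl M (v + ez d)).1 = 0) (ω (cl M v) f) := by
      show (if f = f then flipIf _ (ω (cl M (v + ez d) - ev M d) f) else _) = _
      rw [if_pos rfl, cl_add_ez, add_sub_cancel_right]
    unfold rz
    simp only [e1]
    by_cases hd : d = 0
    · subst hd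
      have e2 : v + ez 0 = (v.1 + 1, v.2) := by
        ext <;> simp [ez]
      by_cases hw : wd M (cl M (v + ez 0)).1 = 0
      · have h1 : (v.1 + 1) % 2 ^ M = 0 := by
          have := wd_cl_fst (M := M) (v + ez 0)
          rw [hw, e2] at this
          exact this.symm
        obtain ⟨h2, h3⟩ := ediv_succ_of_eq hL h1
        have h4 : ω (cl M v) f = (fun _ => true, false) := by
          apply hω.right
          have := wd_cl_fst (M := M) v
          rw [h3] at this
          have h5 : (15 : ℤ) * 2 ^ M ≤ 16 * wd M (cl M v).1 := by rw [this]; linarith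
          exact_mod_cast h5
        simp only [flipIf, hw, and_self, if_true, h4, Bool.not_true]
        rw [e2]
        simp only [h2]
        simp
      · have h1 : (v.1 + 1) % 2 ^ M ≠ 0 := by
          have := wd_cl_fst (M := M) (v + ez 0)
          rw [e2] at this
          intro h0
          simp only [h0] at this
          rw [e2] at hw
          exact hw (by exact_mod_cast this)
        have h2 := ediv_succ_of_ne hL h1
        simp only [flipIf, hw, and_false, if_false]
        have h3 : cx (v + ez 0) = cx v := by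
          apply hcx
          · rw [e2]; exact h2
          · rw [e2]
        rw [h3, e2]
        simp only [h2]
    · have hd1 : d = 1 := by omega
      subst hd1
      have e2 : v + ez 1 = (v.1, v.2 + 1) := by
        ext <;> simp [ez]
      have e3 : ¬ ((1 : Fin 2) = 0 ∧ wd M (cl M (v + ez 1)).1 = 0) := fun h => absurd h.1 (by decide)
      simp only [flipIf, e3, if_false]
      have e4 : (ω (cl M v) f).1 (cx (v + ez 1)) = (ω (cl M v) f).1 (cx v) := by
        by_cases hn : nl M (v.2 + 1) = nl M v.2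
        · rw [hcx (v + ez 1) v (by rw [e2]) (by rw [e2]; exact hn)]
        · obtain ⟨h1, h2⟩ := nl_succ hM hn
          have h3 := wd_cl_snd (M := M) v
          rw [← h3] at h1 h2
          obtain ⟨b, hb⟩ := hω.mid (cl M v) f (by exact_mod_cast h1) (by exact_mod_cast h2)
          rw [hb]
      rw [e4, e2]
  · rw [Pi.single_eq_of_ne hf, add_zero]
    have e1 : liftT f0 d ω (cl M v) f = ω (cl M v) f := by
      show (if f = f0 then _ else ω (cl M v) f) = _
      rw [if_neg hf]
    unfold rz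
    simp only [e1]

open Classical in
/-- the floor permutation of `eP E a` on the classes -/
noncomputable def sE (M R : ℕ) (E : Set (ℤ × ℤ)) (a : Equiv.Perm ι) (u : Tor M) : Equiv.Perm ι :=
  if (FarC M R u.1 ∧ FarC M R u.2) ∧ ∃ v ∈ E, cl M v = u then a else 1

open Classical in
/-- the floor permutation of `eP E a` on the classes with contexts -/
noncomputable def sEc (M R : ℕ) (E : Set (ℤ × ℤ)) (cx : ℤ × ℤ → Ctx) (a : Equiv.Perm ι)
    (u : Tor M) (e : Ctx) : Equiv.Perm ι :=
  if FarC M R u.1 then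
    (if FarC M R u.2 then sE M R E a u else if ∃ v ∈ E, cl M v = u ∧ cx v = e then a else 1)
  else 1

/-- lift of `eP E a` -/
noncomputable def liftE (M R : ℕ) (E : Set (ℤ × ℤ)) (cx : ℤ × ℤ → Ctx) (a : Equiv.Perm ι) :
    Equiv.Perm (Om M ι Ctx) := liftC (sEc M R E cx a) (sE M R E a)

theorem FarC_iff {R : ℕ} (x : ℤ) : FarC M R (x : ZMod (2 ^ (M + 1))) ↔ Far M R x := by
  unfold FarC Far
  rw [← wd_intCast M x]
  norm_cast

theorem FarC_cl1 {R : ℕ} (v : ℤ × ℤ) : FarC M R (cl M v).1 ↔ Far M R v.1 := FarC_iff v.1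
theorem FarC_cl2 {R : ℕ} (v : ℤ × ℤ) : FarC M R (cl M v).2 ↔ Far M R v.2 := FarC_iff v.2

theorem sE_of_not {R : ℕ} {E : Set (ℤ × ℤ)} {a : Equiv.Perm ι} {u : Tor M}
    (h : ¬ (FarC M R u.1 ∧ FarC M R u.2)) : sE M R E a u = 1 := by
  unfold sE
  rw [if_neg fun h' => h h'.1]

/-- **realisation of (C)** -/
theorem rz_liftE {R : ℕ} (hR : 16 * R ≤ 2 ^ M) (cx : ℤ × ℤ → Ctx) {E : Set (ℤ × ℤ)}
    (hface : ∀ u v : ℤ × ℤ, cl M u = cl M v → Far M R u.1 → Far M R u.2 → (u ∈ E ↔ v ∈ E))
    (hline : ∀ u v : ℤ × ℤ, cl M u = cl M v → Far M R u.1 → cx u = cx v → (u ∈ E ↔ v ∈ E))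
    {ω : Om M ι Ctx} (hω : Good ω) (a : Equiv.Perm ι) :
    rz M cx (liftE M R E cx a ω) ∘ eP E a = rz M cx ω := by
  have hval : ∀ v f, liftE M R E cx a ω (cl M v) f =
      (fun e => (ω (cl M v) ((sEc M R E cx a (cl M v) e)⁻¹ f)).1 e,
        (ω (cl M v) ((sE M R E a (cl M v))⁻¹ f)).2) := fun v f => rfl
  -- near the vertical lines nothing depends on the floor
  have hV : ∀ v : ℤ × ℤ, ¬ Far M R v.1 → ∀ f f', ω (cl M v) f = ω (cl M v) f' := by
    intro v hv f f'
    rw [← FarC_cl1] at hv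
    have hv' : wd M (cl M v).1 ≤ R ∨ 2 ^ M ≤ wd M (cl M v).1 + R := by
      by_contra hc
      push Not at hc
      exact hv hc
    rcases hv' with h | h
    · rw [hω.left _ f (by omega), hω.left _ f' (by omega)]
    · rw [hω.right _ f (by omega), hω.right _ f' (by omega)]
  -- near the horizontal lines the tags do not depend on the floor
  have hH : ∀ v : ℤ × ℤ, ¬ Far M R v.2 → ∀ f f', (ω (cl M v) f).2 = (ω (cl M v) f').2 := by
    intro v hv f f'
    rw [← FarC_cl2] at hv
    have hv' : wd M (cl M v).2 ≤ R ∨ 2 ^ M ≤ wd M (cl M v).2 + R := by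
      by_contra hc
      push Not at hc
      exact hv hc
    have h2 : 16 * wd M (cl M v).2 ≤ 2 ^ M ∨ 15 * 2 ^ M ≤ 16 * wd M (cl M v).2 := by
      rcases hv' with h | h
      · left; omega
      · right; omega
    rw [hω.tag _ f h2, hω.tag _ f' h2]
  funext ⟨v, f⟩
  show rz M cx (liftE M R E cx a ω) (eP E a (v, f)) = _
  by_cases hv : v ∈ E
  · rw [eP_apply_mem hv]
    unfold rz
    simp only [hval]
    by_cases h1 : Far M R v.1
    · by_cases h2 : Far M R v.2
      · have hs : sE M R E a (cl M v) = a := by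
          unfold sE
          rw [if_pos]
          exact ⟨⟨(FarC_cl1 _).2 h1, (FarC_cl2 _).2 h2⟩, v, hv, rfl⟩
        have hs2 : sEc M R E cx a (cl M v) (cx v) = a := by
          unfold sEc
          rw [if_pos ((FarC_cl1 _).2 h1), if_pos ((FarC_cl2 _).2 h2), hs]
        rw [hs, hs2]
        simp
      · have hs2 : sEc M R E cx a (cl M v) (cx v) = a := by
          unfold sEc
          rw [if_pos ((FarC_cl1 _).2 h1), if_neg (fun h => h2 ((FarC_cl2 _).1 h)), if_pos]
          exact ⟨v, hv, rfl, rfl⟩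
        rw [hs2, hH v h2 _ f]
        simp
    · have hs2 : sEc M R E cx a (cl M v) (cx v) = 1 := by
        unfold sEc
        rw [if_neg (fun h => h1 ((FarC_cl1 _).1 h))]
      have hs3 : sE M R E a (cl M v) = 1 := sE_of_not fun h => h1 ((FarC_cl1 _).1 h.1)
      rw [hs2, hs3]
      simp [hV v h1 (a f) f]
  · rw [eP_apply_notMem hv]
    unfold rz
    simp only [hval]
    by_cases h1 : Far M R v.1
    · by_cases h2 : Far M R v.2
      · have hs : sE M R E a (cl M v) = 1 := by
          unfold sE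
          rw [if_neg]
          rintro ⟨_, v', hv', hc⟩
          exact hv ((hface v v' hc.symm h1 h2).2 hv')
        have hs2 : sEc M R E cx a (cl M v) (cx v) = 1 := by
          unfold sEc
          rw [if_pos ((FarC_cl1 _).2 h1), if_pos ((FarC_cl2 _).2 h2), hs]
        rw [hs, hs2]
        simp
      · have hs2 : sEc M R E cx a (cl M v) (cx v) = 1 := by
          unfold sEc
          rw [if_pos ((FarC_cl1 _).2 h1), if_neg (fun h => h2 ((FarC_cl2 _).1 h)), if_neg]
          rintro ⟨v', hv', hc, hc'⟩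
          exact hv ((hline v v' hc.symm h1 hc'.symm).2 hv')
        rw [hs2, hH v h2 _ f]
        simp
    · have hs2 : sEc M R E cx a (cl M v) (cx v) = 1 := by
        unfold sEc
        rw [if_neg (fun h => h1 ((FarC_cl1 _).1 h))]
      have hs3 : sE M R E a (cl M v) = 1 := sE_of_not fun h => h1 ((FarC_cl1 _).1 h.1)
      rw [hs2, hs3]
      simp

end real

/-! ### equivariance for the lift of `eP E a` -/

section equiv

variable {M : ℕ} {ι Ctx : Type*} [Fintype ι] [Fintype Ctx] [DecidableEq Ctx]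

/-- **equivariance (C)** -/
theorem Psi_liftE (P : Profile) {R : ℕ} (hR : 16 * R ≤ 2 ^ M) (cx : ℤ × ℤ → Ctx)
    (E : Set (ℤ × ℤ)) (a : Equiv.Perm ι) (z : Fld M ι)
    (hz : ∀ u, ¬ (FarC M R u.1 ∧ FarC M R u.2) → ∀ f i, z u f i = 0) (ω : Om M ι Ctx) :
    Psi P z ((liftE M R E cx a).symm ω) = Psi P (pm (sE M R E a) z) ω := by
  have hL0 : (0 : ℝ) < 2 ^ M := by positivity
  apply Psi_liftC
  intro u
  by_cases h1 : FarC M R u.1
  · by_cases h2 : FarC M R u.2
    · left
      intro e
      unfold sEc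
      rw [if_pos h1, if_pos h2]
    · right
      refine ⟨sE_of_not fun h => h2 h.2, hz u fun h => h2 h.2, ?_⟩
      apply P.B_zero
      right; right
      have h3 : wd M u.2 ≤ R ∨ 2 ^ M ≤ wd M u.2 + R := by
        by_contra hc
        push Not at hc
        exact h2 hc
      rcases h3 with h3 | h3
      · left
        have h4 : (16 : ℝ) * wd M u.2 ≤ 2 ^ M := by exact_mod_cast (by omega : 16 * wd M u.2 ≤ 2 ^ M)
        unfold pos
        rw [div_le_iff₀ hL0]
        linarith
      · right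
        have h4 : (15 : ℝ) * 2 ^ M ≤ 16 * wd M u.2 := by
          exact_mod_cast (by omega : 15 * 2 ^ M ≤ 16 * wd M u.2)
        unfold pos
        rw [le_div_iff₀ hL0]
        linarith
  · left
    intro e
    rw [sE_of_not fun h => h1 h.1]
    unfold sEc
    rw [if_neg h1]

/-- form with `hat` -/
theorem Psi_liftE' (P : Profile) {R : ℕ} (hR : 16 * R ≤ 2 ^ M) (cx : ℤ × ℤ → Ctx)
    (E : Set (ℤ × ℤ)) (a : Equiv.Perm ι) (z : Fld M ι)
    (hz : ∀ u, ¬ (FarC M R u.1 ∧ FarC M R u.2) → ∀ f i, z u f i = 0) (ω : Om M ι Ctx) :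
    Psi P (pm (sE M R E a) z) (liftE M R E cx a ω) = Psi P z ω := by
  rw [← Psi_liftE P hR cx E a z hz, Equiv.symm_apply_apply]

/-- form with `hat` -/
theorem Psi_liftT' [DecidableEq ι] (P : Profile) (hM : 4 ≤ M) (z : Fld M ι)
    (hz : ∀ u f i, |z u f i| ≤ 2 ^ M / 16) (f0 : ι) (d : Fin 2) (ω : Om M ι Ctx) :
    Psi P (tr f0 d z) (liftT f0 d ω) = Psi P z ω := by
  rw [← Psi_liftT P hM z hz f0 d, Equiv.symm_apply_apply]

end equiv

end Vale.Agent.P196.AM
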