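import Vale.Agent.P196.AM.Prof
import Vale.Agent.P196.AM.Kernel

/-!
Second order expansion of the one-site overlap along profiles (P196, amenability half).
-/

namespace Vale.Agent.P196.AM

open Real

/-- `f s i = O(s^k)` uniformly for `s ∈ [0,1]` and all `i`. -/
def U {ι : Type*} (k : ℕ) (f : ℝ → ι → ℝ) : Prop :=
  ∃ C : ℝ, 0 ≤ C ∧ ∀ s, 0 ≤ s → s ≤ 1 → ∀ i, |f s i| ≤ C * s ^ k

section U

variable {ι : Type*} {f g : ℝ → ι → ℝ} {k l : ℕ}

theorem U.of_le (hg : U k g) (h : ∀ s, 0 ≤ s → s ≤ 1 → ∀ i, |f s i| ≤ g s i) : U k f := by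
  obtain ⟨C, hC, H⟩ := hg
  exact ⟨C, hC, fun s h0 h1 i => ((h s h0 h1 i).trans (le_abs_self _)).trans (H s h0 h1 i)⟩

theorem U.congr (hg : U k g) (h : ∀ s i, f s i = g s i) : U k f := by
  have : f = g := funext fun s => funext fun i => h s i
  rw [this]; exact hg

theorem U.add (hf : U k f) (hg : U k g) : U k (fun s i => f s i + g s i) := by
  obtain ⟨C, hC, H⟩ := hf
  obtain ⟨D, hD, H'⟩ := hg
  refine ⟨C + D, by positivity, fun s h0 h1 i => ?_⟩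
  have := abs_add_le (f s i) (g s i)
  have := H s h0 h1 i
  have := H' s h0 h1 i
  linarith [add_mul C D (s ^ k)]

theorem U.neg (hf : U k f) : U k (fun s i => - f s i) := by
  obtain ⟨C, hC, H⟩ := hf
  exact ⟨C, hC, fun s h0 h1 i => by rw [abs_neg]; exact H s h0 h1 i⟩

theorem U.sub (hf : U k f) (hg : U k g) : U k (fun s i => f s i - g s i) := by
  simpa [sub_eq_add_neg] using hf.add hg.neg

theorem U.abs (hf : U k f) : U k (fun s i => |f s i|) := by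
  obtain ⟨C, hC, H⟩ := hf
  exact ⟨C, hC, fun s h0 h1 i => by rw [abs_abs]; exact H s h0 h1 i⟩

theorem U.mul (hf : U k f) (hg : U l g) : U (k + l) (fun s i => f s i * g s i) := by
  obtain ⟨C, hC, H⟩ := hf
  obtain ⟨D, hD, H'⟩ := hg
  refine ⟨C * D, by positivity, fun s h0 h1 i => ?_⟩
  rw [abs_mul]
  calc _ ≤ (C * s ^ k) * (D * s ^ l) :=
        mul_le_mul (H s h0 h1 i) (H' s h0 h1 i) (abs_nonneg _) (by positivity)
    _ = _ := by ring

theorem U.mono (hf : U l f) (h : k ≤ l) : U k f := by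
  obtain ⟨C, hC, H⟩ := hf
  refine ⟨C, hC, fun s h0 h1 i => (H s h0 h1 i).trans ?_⟩
  exact mul_le_mul_of_nonneg_left (pow_le_pow_of_le_one h0 h1 h) hC

theorem U.const {F : ι → ℝ} (C : ℝ) (h : ∀ i, |F i| ≤ C) : U 0 (fun _ i => F i) :=
  ⟨|C|, abs_nonneg _, fun s _ _ i => by simpa using (h i).trans (le_abs_self C)⟩

theorem U.bdd (C : ℝ) (h : ∀ s i, |f s i| ≤ C) : U 0 f :=
  ⟨|C|, abs_nonneg _, fun s _ _ i => by simpa using (h s i).trans (le_abs_self C)⟩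

theorem U.cst (c : ℝ) : U 0 (fun (_ : ℝ) (_ : ι) => c) :=
  ⟨|c|, abs_nonneg _, fun s _ _ i => by simp⟩

theorem U.s : U 1 (fun (s : ℝ) (_ : ι) => s) :=
  ⟨1, zero_le_one, fun s h0 _ i => by simp [abs_of_nonneg h0]⟩

theorem U.pow (hf : U k f) : ∀ n : ℕ, U (n * k) (fun s i => f s i ^ n)
  | 0 => by simpa using (U.cst (ι := ι) 1)
  | n + 1 => by
    have h := (U.pow hf n).mul hf
    have e : (n + 1) * k = n * k + k := by ring
    rw [e]
    simpa [pow_succ] using h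

end U

/-- the quadratic form of the expansion -/
noncomputable def G (θ' p p' q q' : ℝ → ℝ) (n : ℕ) (x1 x2 d1 d2 : ℝ) : ℝ :=
  (p' x1 * q x2 * d1 + p x1 * q' x2 * d2) ^ 2 +
    (n * cos (p x1 * q x2) ^ 2 + sin (p x1 * q x2) ^ 2) * (θ' x1 * d1) ^ 2

theorem U.taylor {ι : Type*} {θ θ' : ℝ → ℝ} {C : ℝ} (hθ : C11 θ θ' C) (x h : ι → ℝ) (R : ℝ)
    (hh : ∀ i, |h i| ≤ R) :
    U 2 (fun s i => θ (x i + s * h i) - θ (x i) - s * (θ' (x i) * h i)) := by
  refine ⟨C * R ^ 2, mul_nonneg hθ.nn (sq_nonneg R), fun s _ _ i => ?_⟩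
  have := hθ.taylor (x i) (s * h i)
  have e : θ (x i + s * h i) - θ (x i) - s * (θ' (x i) * h i) =
    θ (x i + s * h i) - θ (x i) - θ' (x i) * (s * h i) := by ring
  beta_reduce
  rw [e]
  refine this.trans ?_
  have h2 : h i ^ 2 ≤ R ^ 2 := by
    rw [← sq_abs (h i)]; exact pow_le_pow_left₀ (abs_nonneg _) (hh i) 2
  rw [mul_pow]
  nlinarith [mul_le_mul_of_nonneg_left h2 (mul_nonneg hθ.nn (sq_nonneg s))]

theorem U.lip {ι : Type*} {θ θ' : ℝ → ℝ} {C : ℝ} (hθ : C11 θ θ' C) (x h : ι → ℝ) (R : ℝ)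
    (hh : ∀ i, |h i| ≤ R) :
    U 1 (fun s i => θ (x i + s * h i) - θ (x i)) := by
  have hR : 0 ≤ |R| := abs_nonneg R
  refine ⟨C * |R|, mul_nonneg hθ.nn hR, fun s h0 _ i => ?_⟩
  have := hθ.lip (x i + s * h i) (x i)
  rw [add_sub_cancel_left, abs_mul, abs_of_nonneg h0] at this
  refine this.trans ?_
  have h2 : |h i| ≤ |R| := (hh i).trans (le_abs_self R)
  have := mul_le_mul_of_nonneg_left h2 (mul_nonneg hθ.nn h0)
  linarith

/-- first-order expansion of a product profile -/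
theorem U.prod_taylor {ι : Type*} {p p' q q' : ℝ → ℝ} {C D : ℝ} (hp : C11 p p' C)
    (hq : C11 q q' D) (x1 x2 h1 h2 : ι → ℝ) (R : ℝ) (hh1 : ∀ i, |h1 i| ≤ R)
    (hh2 : ∀ i, |h2 i| ≤ R) :
    U 2 (fun s i => p (x1 i + s * h1 i) * q (x2 i + s * h2 i) - p (x1 i) * q (x2 i)
      - s * (p' (x1 i) * q (x2 i) * h1 i + p (x1 i) * q' (x2 i) * h2 i)) := by
  have a1 := U.taylor hp x1 h1 R hh1
  have a2 := U.taylor hq x2 h2 R hh2
  have b1 := U.lip hp x1 h1 R hh1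
  have b2 := U.lip hq x2 h2 R hh2
  have c1 : U 0 (fun (_ : ℝ) i => p (x1 i)) := U.const C fun i => hp.bd _
  have c2 : U 0 (fun (_ : ℝ) i => q (x2 i)) := U.const D fun i => hq.bd _
  have := (((c1.mul a2).add ((a1.mul c2).mono (k := 0 + 2) (by norm_num))).add
    ((b1.mul b2).mono (k := 0 + 2) (by norm_num))).mono (k := 2) (by norm_num)
  refine U.congr this ?_
  intro s i
  ring

/-- the profile map -/
def Phi (θ p q : ℝ → ℝ) (x1 x2 : ℝ) : ℝ × ℝ := (θ x1, p x1 * q x2)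

/-- second-order expansion of the one-site overlap, uniform in the site -/
theorem site_expand {ι : Type*} {θ θ' p p' q q' : ℝ → ℝ} {C1 C2 C3 : ℝ} (hθ : C11 θ θ' C1)
    (hp : C11 p p' C2) (hq : C11 q q' C3) (n : ℕ) (x1 x2 h1 h2 k1 k2 : ι → ℝ) (R : ℝ)
    (hh1 : ∀ i, |h1 i| ≤ R) (hh2 : ∀ i, |h2 i| ≤ R) (hk1 : ∀ i, |k1 i| ≤ R)
    (hk2 : ∀ i, |k2 i| ≤ R) :
    U 3 (fun s i => 1 - K n (Phi θ p q (x1 i + s * h1 i) (x2 i + s * h2 i))
        (Phi θ p q (x1 i + s * k1 i) (x2 i + s * k2 i))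
      - s ^ 2 / 2 * G θ' p p' q q' n (x1 i) (x2 i) (h1 i - k1 i) (h2 i - k2 i)) := by
  -- the two differences
  set δ : ℝ → ι → ℝ := fun s i => θ (x1 i + s * h1 i) - θ (x1 i + s * k1 i) with hδ
  set ε : ℝ → ι → ℝ := fun s i => p (x1 i + s * h1 i) * q (x2 i + s * h2 i) -
    p (x1 i + s * k1 i) * q (x2 i + s * k2 i) with hε
  set δ0 : ℝ → ι → ℝ := fun s i => s * (θ' (x1 i) * (h1 i - k1 i)) with hδ0
  set ε0 : ℝ → ι → ℝ := fun s i => s * (p' (x1 i) * q (x2 i) * (h1 i - k1 i) +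
    p (x1 i) * q' (x2 i) * (h2 i - k2 i)) with hε0
  have Ud1 : U 0 (fun (_ : ℝ) i => h1 i - k1 i) :=
    (U.const R hh1).sub (U.const R hk1)
  have Ud2 : U 0 (fun (_ : ℝ) i => h2 i - k2 i) :=
    (U.const R hh2).sub (U.const R hk2)
  have Up : U 0 (fun (_ : ℝ) i => p (x1 i)) := U.const _ fun i => hp.bd _
  have Uq : U 0 (fun (_ : ℝ) i => q (x2 i)) := U.const _ fun i => hq.bd _
  have Up' : U 0 (fun (_ : ℝ) i => p' (x1 i)) := U.const _ fun i => hp.bd' _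
  have Uq' : U 0 (fun (_ : ℝ) i => q' (x2 i)) := U.const _ fun i => hq.bd' _
  have Uθ' : U 0 (fun (_ : ℝ) i => θ' (x1 i)) := U.const _ fun i => hθ.bd' _
  have Uδ0 : U 1 δ0 := U.s.mul (Uθ'.mul Ud1)
  have Uε0 : U 1 ε0 := U.s.mul (((Up'.mul Uq).mul Ud1).add ((Up.mul Uq').mul Ud2))
  have Uδδ0 : U 2 (fun s i => δ s i - δ0 s i) := by
    refine U.congr ((U.taylor hθ x1 h1 R hh1).sub (U.taylor hθ x1 k1 R hk1)) ?_
    intro s i
    simp only [hδ, hδ0]
    ring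
  have Uεε0 : U 2 (fun s i => ε s i - ε0 s i) := by
    refine U.congr ((U.prod_taylor hp hq x1 x2 h1 h2 R hh1 hh2).sub
      (U.prod_taylor hp hq x1 x2 k1 k2 R hk1 hk2)) ?_
    intro s i
    simp only [hε, hε0]
    ring
  have Uδ : U 1 δ := by
    refine U.congr ((Uδδ0.mono (k := 1) (by norm_num)).add Uδ0) ?_
    intro s i; ring
  have Uε : U 1 ε := by
    refine U.congr ((Uεε0.mono (k := 1) (by norm_num)).add Uε0) ?_
    intro s i; ring
  -- squares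
  have Uδsq : U 3 (fun s i => δ s i ^ 2 - δ0 s i ^ 2) := by
    refine U.congr (Uδδ0.mul (Uδ.add Uδ0)) ?_
    intro s i; ring
  have Uεsq : U 3 (fun s i => ε s i ^ 2 - ε0 s i ^ 2) := by
    refine U.congr (Uεε0.mul (Uε.add Uε0)) ?_
    intro s i; ring
  -- the weight
  have UB : U 1 (fun s i => p (x1 i + s * h1 i) * q (x2 i + s * h2 i) - p (x1 i) * q (x2 i)) := by
    have a := (U.prod_taylor hp hq x1 x2 h1 h2 R hh1 hh2).mono (k := 1) (by norm_num)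
    have b : U 1 (fun s i => s * (p' (x1 i) * q (x2 i) * h1 i + p (x1 i) * q' (x2 i) * h2 i)) :=
      U.s.mul (((Up'.mul Uq).mul (U.const R hh1)).add ((Up.mul Uq').mul (U.const R hh2)))
    refine U.congr (a.add b) ?_
    intro s i; ring
  have Ucos : U 1 (fun s i => cos (p (x1 i + s * h1 i) * q (x2 i + s * h2 i)) -
      cos (p (x1 i) * q (x2 i))) :=
    U.of_le UB.abs fun s _ _ i => abs_cos_sub_cos_le _ _
  have Usin : U 1 (fun s i => sin (p (x1 i + s * h1 i) * q (x2 i + s * h2 i)) -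
      sin (p (x1 i) * q (x2 i))) :=
    U.of_le UB.abs fun s _ _ i => abs_sin_sub_sin_le _ _
  have Uc1 : U 0 (fun s i => cos (p (x1 i + s * h1 i) * q (x2 i + s * h2 i))) :=
    U.bdd 1 fun s i => abs_cos_le_one _
  have Us1 : U 0 (fun s i => sin (p (x1 i + s * h1 i) * q (x2 i + s * h2 i))) :=
    U.bdd 1 fun s i => abs_sin_le_one _
  have Uc0 : U 0 (fun (_ : ℝ) i => cos (p (x1 i) * q (x2 i))) :=
    U.bdd 1 fun s i => abs_cos_le_one _
  have Us0 : U 0 (fun (_ : ℝ) i => sin (p (x1 i) * q (x2 i))) :=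
    U.bdd 1 fun s i => abs_sin_le_one _
  set w : ℝ → ι → ℝ := fun s i => n * cos (p (x1 i + s * h1 i) * q (x2 i + s * h2 i)) ^ 2 +
    sin (p (x1 i + s * h1 i) * q (x2 i + s * h2 i)) ^ 2 with hw
  set w0 : ℝ → ι → ℝ := fun _ i => n * cos (p (x1 i) * q (x2 i)) ^ 2 +
    sin (p (x1 i) * q (x2 i)) ^ 2 with hw0
  have Uww0 : U 1 (fun s i => w s i - w0 s i) := by
    refine U.congr (((U.cst (ι := ι) (n : ℝ)).mul (Ucos.mul (Uc1.add Uc0))).add
      (Usin.mul (Us1.add Us0))) ?_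
    intro s i
    simp only [hw, hw0]
    ring
  have Uw : U 0 w := by
    refine U.congr (((U.cst (ι := ι) (n : ℝ)).mul (Uc1.mul Uc1)).add (Us1.mul Us1)) ?_
    intro s i
    simp only [hw]
    ring
  -- error of the kernel expansion
  have UE : U 3 (fun s i => 1 - K n (Phi θ p q (x1 i + s * h1 i) (x2 i + s * h2 i))
        (Phi θ p q (x1 i + s * k1 i) (x2 i + s * k2 i)) -
        (ε s i ^ 2 + w s i * δ s i ^ 2) / 2) := by
    have b1 : U 3 (fun s i => 3 * |ε s i| ^ 3) := by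
      have := (U.cst (ι := ι) 3).mul (Uε.abs.pow 3)
      exact this.mono (by norm_num)
    have b2 : U 3 (fun s i => ((n:ℝ) ^ 2 / 4) * |δ s i| ^ 4) := by
      have := (U.cst (ι := ι) ((n:ℝ) ^ 2 / 4)).mul (Uδ.abs.pow 4)
      exact this.mono (by norm_num)
    have b3 : U 3 (fun s i => (3 * (n:ℝ) + 3) * |δ s i| ^ 3) := by
      have := (U.cst (ι := ι) (3 * (n:ℝ) + 3)).mul (Uδ.abs.pow 3)
      exact this.mono (by norm_num)
    have b4 : U 3 (fun s i => ((n:ℝ) + 1) / 2 * (|ε s i| * |δ s i| ^ 2)) := by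
      have := (U.cst (ι := ι) (((n:ℝ) + 1) / 2)).mul (Uε.abs.mul (Uδ.abs.pow 2))
      exact this.mono (by norm_num)
    refine U.of_le (((b1.add b2).add b3).add b4) ?_
    intro s _ _ i
    exact K_expand n _ _
  have fin : U 3 (fun s i => (1 / 2 : ℝ) * ((ε s i ^ 2 - ε0 s i ^ 2) +
      w s i * (δ s i ^ 2 - δ0 s i ^ 2) + (w s i - w0 s i) * δ0 s i ^ 2)) := by
    have a := Uw.mul Uδsq
    have b := Uww0.mul (Uδ0.pow 2)
    have c := (Uεsq.add (a.mono (k := 3) (by norm_num))).add (b.mono (k := 3) (by norm_num))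
    exact ((U.cst (ι := ι) (1 / 2)).mul c).mono (by norm_num)
  refine U.congr (UE.add fin) ?_
  intro s i
  simp only [G, hδ, hε, hδ0, hε0, hw, hw0]
  ring

end Vale.Agent.P196.AM
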